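import Vale.Agent.P216J.St
import Vale.Agent.P216R.Nat
import Vale.Agent.P216U.Cmp
import Vale.Agent.P216S.Lim

/-!
# Limits of Ricci flows on a fixed manifold; closing the time interval
-/

open Set Filter Topology Function
open scoped ContDiff Manifold

set_option maxSynthPendingDepth 3
set_option linter.unusedSectionVars false

noncomputable section

namespace Vale.Agent.P216J

open P216R P219.RG P216G P216U

variable {ι E : Type} [NormedAddCommGroup E] [NormedSpace ℝ E] [FiniteDimensional ℝ E]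
  {X : Type} [TopologicalSpace X] [ChartedSpace E X] [IsManifold 𝓘(ℝ, E) ∞ X]
  {N : Type} [TopologicalSpace N] [ChartedSpace E N] [IsManifold 𝓘(ℝ, E) ∞ N]
  {I J : Set ℝ} {V W : Set X} {s t a b : ℝ} {x y : X}

section rf

variable {g h : ℝ → Ten E X}

theorem rf_mono (H : RF g I W) (hJ : J ⊆ I) (hV : IsOpen V) (hVW : V ⊆ W) : RF g J V :=
  ⟨H.toFam.mono hJ hV hVW, fun t ht x hx => (H.eqn t (hJ ht) x (hVW hx)).mono hJ⟩

theorem rf_congr (H : RF g I W) (e : ∀ t ∈ I, EqOn (h t) (g t) W) : RF h I W :=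
  ⟨H.toFam.congr e, fun t ht x hx => by
    rw [Ric_congr ((e t ht).eventuallyEq_of_mem (H.isOpen.mem_nhds hx))]
    exact (H.eqn t ht x hx).congr (fun s hs => e s hs hx) (e t ht hx)⟩

/-- pulling back a form by a linear map -/
def pbL (A : E →L[ℝ] E) : Bil E →L[ℝ] Bil E :=
  (ContinuousLinearMap.compL ℝ E (E →L[ℝ] ℝ) (E →L[ℝ] ℝ)
    ((ContinuousLinearMap.compL ℝ E E ℝ).flip A)).comp
      ((ContinuousLinearMap.compL ℝ E E (E →L[ℝ] ℝ)).flip A)

theorem comap_pbL (f : N → X) (k : Ten E X) (x : N) : comap f k x = pbL (md E f x) (k (f x)) := rfl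

theorem rf_comap (H : RF g I W) {f : N → X} {V : Set N} (hf : LD E f V) (hm : MapsTo f V W) :
    RF (fun t => comap f (g t)) I V :=
  ⟨H.toFam.comap hf hm, fun t ht x hx => by
    rw [(li_comap (H.toFam.met ht) hf hx (hm hx)).Ric, comap_pbL, ← map_smul]
    exact (pbL (md E f x)).hasFDerivAt.comp_hasDerivWithinAt t (H.eqn t ht _ (hm hx))⟩

theorem rf_co (H : RF g I W) (a : X) : RF (fun t => co (g t) a) I (dom E a W) :=
  rf_comap H ((ld_symm a).mono (isOpen_dom a H.isOpen) inter_subset_left) fun _ h => h.2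

theorem rmB_co {g : Ten E X} (H : Met g W) {a : X} {u : E} (hu : u ∈ dom E a W) {k : ℕ} {C : ℝ} :
    RmB (co g a) k u C ↔ RmB g k ((chartAt E a).symm u) C :=
  (li_comap H (ld_symm a) hu.1 hu.2).RmB k C

/-- parabolic rescaling -/
theorem rf_resc (H : RF g I W) {c : ℝ} (hc : 0 < c) (p q : ℝ)
    (hm : ∀ t ∈ J, p + (t - q) / c ∈ I) : RF (fun t => c • g (p + (t - q) / c)) J W :=
  ⟨H.toFam.resc hc (by fun_prop (disch := exact hc.ne')) hm, fun t ht x hx => by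
    have d : HasDerivWithinAt (fun t => p + (t - q) / c) (1 / c) J t :=
      ((((hasDerivAt_id t).sub_const q).div_const c).const_add p).hasDerivWithinAt
    have := ((H.eqn _ (hm t ht) x hx).scomp t d hm).const_smul c
    rw [smul_smul, mul_one_div_cancel hc.ne', one_smul] at this
    rw [Ric_smul _ hc.ne']
    exact this⟩

theorem rmB_smul {g : Ten E X} (H : Met g W) (hx : x ∈ W) {c C : ℝ} {k : ℕ} (hc : 1 ≤ c)
    (h : RmB g k x C) : RmB (c • g) k x (c * C) := fun v hv => by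
  have c0 := one_pos.trans_le hc
  rw [Rm_smul _ _ c0.ne', abs_mul, abs_of_pos c0]
  exact mul_le_mul_of_nonneg_left (h v fun i => (le_mul_of_one_le_left (H.nonneg hx _) hc).trans
    (hv i)) c0.le

end rf

theorem exists_icc (hI : I.OrdConnected) (hne : (interior I).Nonempty) (hs : s ∈ I) (ht : t ∈ I) :
    ∃ a b, a < b ∧ Icc a b ⊆ I ∧ s ∈ Icc a b ∧ t ∈ Icc a b ∧ Icc a b ∈ 𝓝[I] t := by
  have h1 : ∃ a ∈ I, a ≤ t ∧ Ici a ∈ 𝓝[I] t := by
    by_cases h : ∃ a ∈ I, a < t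
    · obtain ⟨a, a1, a2⟩ := h
      exact ⟨a, a1, a2.le, nhdsWithin_le_nhds (Ici_mem_nhds a2)⟩
    · exact ⟨t, ht, le_rfl, mem_of_superset self_mem_nhdsWithin fun a ha =>
        le_of_not_gt fun k => h ⟨a, ha, k⟩⟩
  have h2 : ∃ a ∈ I, t ≤ a ∧ Iic a ∈ 𝓝[I] t := by
    by_cases h : ∃ a ∈ I, t < a
    · obtain ⟨a, a1, a2⟩ := h
      exact ⟨a, a1, a2.le, nhdsWithin_le_nhds (Iic_mem_nhds a2)⟩
    · exact ⟨t, ht, le_rfl, mem_of_superset self_mem_nhdsWithin fun a ha =>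
        le_of_not_gt fun k => h ⟨a, ha, k⟩⟩
  obtain ⟨a, a1, a2, a3⟩ := h1
  obtain ⟨b, b1, b2, b3⟩ := h2
  obtain ⟨u, hu⟩ := hne
  obtain ⟨c, d, ⟨h3, h4⟩, h5⟩ := mem_nhds_iff_exists_Ioo_subset.1 (mem_interior_iff_mem_nhds.1 hu)
  have m : ∀ {p q : ℝ}, p ∈ I → q ∈ I → min p q ∈ I ∧ max p q ∈ I := fun {p q} hp hq => by
    rcases le_total p q with h | h <;> simp [h, hp, hq]
  have k : (u + d) / 2 ∈ I := h5 ⟨by linarith, by linarith⟩
  refine ⟨min (min a s) u, max (max b s) ((u + d) / 2), ?_,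
    hI.out (m (m a1 hs).1 (interior_subset hu)).1 (m (m b1 hs).2 k).2, by simp, by simp [a2, b2],
    mem_of_superset (inter_mem a3 b3) fun z hz => by simp [show a ≤ z from hz.1, show z ≤ b from hz.2]⟩
  exact (min_le_right _ _).trans_lt (lt_max_of_lt_right (by linarith))

theorem nice_of (hI : I.OrdConnected) (hne : (interior I).Nonempty) : Nice I :=
  .of_convex hI.convex hne

variable {l : Filter ι} {U : Ultrafilter ι} {g : ι → ℝ → Ten E X} {h : ℝ → Ten E X}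

/-- near `y` the `g n` are eventually Ricci flows for times in `J`, with uniform bounds for all
derivatives of the curvature -/
def LocB (l : Filter ι) (g : ι → ℝ → Ten E X) (J : Set ℝ) (y : X) : Prop :=
  ∃ V, IsOpen V ∧ y ∈ V ∧ (∀ᶠ n in l, RF (g n) J V) ∧
    ∀ k, ∃ C, ∀ᶠ n in l, ∀ t ∈ J, ∀ z ∈ V, RmB (g n t) k z C

theorem fcv_slice (hI : Nice I) (hW : IsOpen W) (H : FCv l g h I W) (ht : t ∈ I) :
    TCv l (fun n => g n t) (h t) W := fun a =>
  have n := Nice.of_isOpen (isOpen_dom (E := E) a hW)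
  Cv.comp' (f := fun _ y => (t, y)) (g := fun y => (t, y)) n (hI.prod n) (H a)
    (.const n.ud (by fun_prop))
    (fun _ hy => mk_mem_prod ht hy) fun y _ => (ev_mem l _ y).mono fun _ hq => mk_mem_prod ht hq

theorem bj_of_cv {F : Type} [NormedAddCommGroup F] [NormedSpace ℝ F] {S : Set E} (hS : IsOpen S)
    {u : E} (hu : u ∈ S) {f : ι → E → F} (H : ∀ k, BdAt l S k f u)
    (hs : ∀ᶠ q in l ×ˢ 𝓝 u, ContDiffAt ℝ ∞ (f q.1) q.2) (k : ℕ) :
    BJ (l ×ˢ 𝓝 u) Prod.snd k fun q => f q.1 := by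
  refine ⟨hs, fun j hj => ?_⟩
  obtain ⟨C, hC⟩ := H k
  rw [hS.nhdsWithin_eq hu] at hC
  refine ⟨C, ?_⟩
  filter_upwards [hC, tendsto_snd.eventually (hS.mem_nhds hu)] with q h1 h2
  rw [← iteratedFDerivWithin_of_isOpen j hS h2]
  exact h1.2 j hj

/-- bounds for the space-time jets in a chart, and uniform positivity -/
theorem LocB.jets {h0 : Ten E X} (hab : a < b) (hs : s ∈ Icc a b) (hm : Met h0 W)
    (hc : TCv l (fun n => g n s) h0 W) {z : X} {u : E} (hu : u ∈ dom E z W)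
    (H : LocB l g (Icc a b) ((chartAt E z).symm u)) :
    (∀ t ∈ Icc a b, ∀ k, BdAt l (Icc a b ×ˢ dom E z W) k (fun n p => co (g n p.1) z p.2) (t, u)) ∧
      ∃ c > 0, ∀ᶠ n in l, ∀ t ∈ Icc a b, ∀ v, c * ‖v‖ ^ 2 ≤ co (g n t) z u v v := by
  obtain ⟨V, V1, V2, V3, V4⟩ := H
  have o := isOpen_dom (E := E) z V1
  have oW := isOpen_dom (E := E) z hm.isOpen
  have m : ∀ᶠ q in l ×ˢ 𝓝 u, q.2 ∈ dom E z V := tendsto_snd.eventually (o.mem_nhds ⟨hu.1, V2⟩)
  have r := (tendsto_fst (f := l) (g := 𝓝 u)).eventually V3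
  have f : Fl (l ×ˢ 𝓝 u) (fun q t => co (g q.1 t) z) (fun _ => Icc a b) (fun _ => dom E z V)
      Prod.snd fun _ => s :=
    ⟨⟨.of_forall fun _ => ordConnected_Icc, m, .of_forall fun _ => hs, b - a,
      .of_forall fun _ t ht => abs_le.2 ⟨by linarith [ht.1, hs.2], by linarith [ht.2, hs.1]⟩⟩,
      r.mono fun _ k => rf_co k z⟩
  have R : ∀ j, RB (l ×ˢ 𝓝 u) (fun q t => co (g q.1 t) z) (fun _ => Icc a b) Prod.snd j :=
    fun j => (V4 j).imp fun C hC => by
      filter_upwards [m, r, tendsto_fst.eventually hC] with q h1 h2 h3 t ht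
      exact (rmB_co (h2.toFam.met ht) h1).2 (h3 t ht _ h1.2)
  have p : UPos (l ×ˢ 𝓝 u) fun q => co (g q.1 s) z q.2 := by
    have p0 := (hm.isMetricOn z).pos u hu
    obtain ⟨c, c0, hc'⟩ := coercive p0
    have := (hc z).tendsto (.of_isOpen oW) hu
    rw [oW.nhdsWithin_eq hu] at this
    refine ⟨c / 2, half_pos c0, ((tendsto_const_nhds.prodMk_nhds this).eventually
      (ev_cmp p0 one_lt_two)).mono fun q hq v => ?_⟩
    linarith [hc' v, hq v]
  have b0 := bj_of_cv oW hu ((hc z).bd u hu) (f.mt0.at fun _ _ m hy => m.contDiffAt hy)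
  refine ⟨fun t ht k => ?_, ?_⟩
  · obtain ⟨C, hC⟩ := f.stw (.of_forall fun _ => by simp [hab]) p R b0 k
    refine BdAt.congr_set (S := Icc a b ×ˢ dom E z V) ⟨C, ?_⟩ ?_
    · have t1 : Tendsto (fun q : ι × ℝ × E => (q.1, q.2.2))
          (l ×ˢ 𝓝[Icc a b ×ˢ dom E z V] (t, u)) (l ×ˢ 𝓝 u) :=
        tendsto_id.prodMap (continuous_snd.continuousAt.mono_left nhdsWithin_le_nhds)
      filter_upwards [t1.eventually hC, ev_mem l _ (t, u)] with q h1 h2 using h1 _ h2.1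
    · filter_upwards [continuous_snd.continuousAt.eventually
        ((o.inter oW).mem_nhds (x := ((t, u) : ℝ × E).2) ⟨⟨hu.1, V2⟩, hu⟩)] with q hq
      exact propext ⟨fun k => ⟨k.1, hq.2⟩, fun k => ⟨k.1, hq.1⟩⟩
  · obtain ⟨c, c0, hc'⟩ := f.upos (R 0) p
    exact ⟨c, c0, (tendsto_id.prodMk (tendsto_const_pure.mono_right (pure_le_nhds u))).eventually
      (ev_tf.1 hc')⟩

/-- the Ricci flow equation passes to the limit -/
theorem rf_of_fcv (hI : I.OrdConnected) (hne : (interior I).Nonempty) (H : FCv U g h I W)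
    (hf : Fam h I W) (hr : ∀ t ∈ I, ∀ y ∈ W, ∃ J V, J ⊆ I ∧ t ∈ J ∧ UniqueDiffWithinAt ℝ J t ∧
      y ∈ V ∧ ∀ᶠ n in U, RF (g n) J V) : RF h I W := by
  refine ⟨hf, fun t ht x hx => ?_⟩
  obtain ⟨J, V, j1, j2, j3, v1, v2⟩ := hr t ht x hx
  have n := (nice_of hI hne).prod (.of_isOpen (isOpen_dom (E := E) x hf.isOpen))
  have m : (t, pt E x) ∈ I ×ˢ dom E x W := mk_mem_prod ht (pt_mem_dom hx)
  have d : ∀ {k : ℝ → Ten E X}, DifferentiableWithinAt ℝ (fun p : ℝ × E => co (k p.1) x p.2)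
      (I ×ˢ dom E x W) (t, pt E x) → HasDerivWithinAt (fun s => k s x) (fderivWithin ℝ
        (fun p : ℝ × E => co (k p.1) x p.2) (I ×ˢ dom E x W) (t, pt E x) (1, 0)) I t := fun hk => by
    simpa only [Function.comp_def, co_pt] using hk.hasFDerivWithinAt.comp_hasDerivWithinAt
      (f := fun s => (s, pt E x)) t ((hasDerivAt_id t).prodMk
        (hasDerivAt_const t _)).hasDerivWithinAt fun s hs => mk_mem_prod hs (pt_mem_dom hx)
  have t1 := ((ContinuousLinearMap.apply ℝ (Bil E) ((1 : ℝ), (0 : E))).continuous.tendsto _).comp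
    (((H x).fderivWithin n).lim _ m)
  have t2 := ((P216S.cv_ricG (fcv_slice (nice_of hI hne) hf.isOpen H ht x)
    ((hf.met ht).isMetricOn x)).lim _ (pt_mem_dom hx)).const_smul (-2 : ℝ)
  convert d ((hf.smooth x _ m).differentiableWithinAt (by simp)) using 1
  refine tendsto_nhds_unique t2 (t1.congr' ?_)
  filter_upwards [v2, ev_at ((H x).ev_cd m 1) m] with n a b
  exact j3.eq_deriv _ ((d (b.differentiableWithinAt (by simp))).mono j1) (a.eqn t j2 x v1)

/-- **limit flow** -/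
theorem exists_lim {h0 : Ten E X} (hI : I.OrdConnected) (hne : (interior I).Nonempty) (hs : s ∈ I)
    (hm : Met h0 W) (hc : TCv U (fun n => g n s) h0 W)
    (H : ∀ a b, a < b → Icc a b ⊆ I → s ∈ Icc a b → ∀ y ∈ W, LocB U g (Icc a b) y) :
    ∃ h, RF h I W ∧ FCv U g h I W ∧ EqOn (h s) h0 W := by
  have B : ∀ z, ∀ p ∈ I ×ˢ dom E z W, ∀ k,
      BdAt U (I ×ˢ dom E z W) k (fun n p => co (g n p.1) z p.2) p := fun z p hp k => by
    obtain ⟨a, b, h1, h2, h3, h4, h5⟩ := exists_icc hI hne hs hp.1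
    refine ((LocB.jets h1 h3 hm hc hp.2 (H a b h1 h2 h3 _ hp.2.2)).1 _ h4 k).congr_set ?_
    filter_upwards [continuous_fst.continuousAt.eventually
      (eventually_nhdsWithin_iff.1 h5)] with q hq
    exact propext ⟨fun k => ⟨h2 k.1, k.2⟩, fun k => ⟨hq k.1, k.2⟩⟩
  have L : ∀ t ∈ I, ∀ x ∈ W, ∃ z, Tendsto (fun n => g n t x) U (𝓝 z) := fun t ht x hx => by
    simpa only [co_pt] using
      (B x (t, pt E x) (mk_mem_prod ht (pt_mem_dom hx)) 0).exists_lim (mk_mem_prod ht (pt_mem_dom hx))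
  choose! h hh using L
  have F : FCv U g h I W := fun z => ⟨B z, fun p hp =>
    ((pbL _).continuous.tendsto _).comp (hh _ hp.1 _ hp.2.2)⟩
  have ap : ∀ t ∈ I, ∀ x ∈ W, ∀ v w : E, Tendsto (fun n => g n t x v w) U (𝓝 (h t x v w)) :=
    fun t ht x hx v w => (((ContinuousLinearMap.apply ℝ ℝ w).comp
      (ContinuousLinearMap.apply ℝ (E →L[ℝ] ℝ) v)).continuous.tendsto _).comp (hh t ht x hx)
  refine ⟨h, rf_of_fcv hI hne F ⟨hm.isOpen, fun t ht x hx v w => ?_, fun t ht x hx v hv => ?_,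
    fun z => (F z).contDiffOn ((nice_of hI hne).prod (.of_isOpen (isOpen_dom z hm.isOpen)))⟩
    fun t ht y hy => ?_, F, fun x hx => tendsto_nhds_unique (hh s hs x hx) (hc.lim hx)⟩
  · obtain ⟨a, b, h1, h2, h3, h4, -⟩ := exists_icc hI hne hs ht
    obtain ⟨V, -, V2, V3, -⟩ := H a b h1 h2 h3 x hx
    exact tendsto_nhds_unique (ap t ht x hx v w) ((ap t ht x hx w v).congr'
      (V3.mono fun n k => k.symm t h4 x V2 w v))
  · obtain ⟨a, b, h1, h2, h3, h4, -⟩ := exists_icc hI hne hs ht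
    obtain ⟨c, c0, hc'⟩ := (LocB.jets h1 h3 hm hc (pt_mem_dom hx)
      (by rw [symm_pt]; exact H a b h1 h2 h3 x hx)).2
    exact (mul_pos c0 (pow_pos (norm_pos_iff.2 hv) 2)).trans_le (ge_of_tendsto (ap t ht x hx v v)
      (hc'.mono fun n k => by simpa only [co_pt] using k t h4 v))
  · obtain ⟨a, b, h1, h2, h3, h4, -⟩ := exists_icc hI hne hs ht
    obtain ⟨V, -, V2, V3, -⟩ := H a b h1 h2 h3 y hy
    exact ⟨_, V, h2, h4, uniqueDiffOn_Icc h1 t h4, V2, V3⟩

end Vale.Agent.P216J
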