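import Vale.Agent.P216FA.Plan
import Vale.Agent.P216DC.Resc
import Vale.Agent.P216SG.Neck
import Vale.Agent.P216FI.Vol2

/-!
# Monotonicity, change of the base point and rescaling of the data of a flow with surgery
-/

open scoped Manifold ContDiff Topology ENNReal
open Set MeasureTheory Filter

set_option maxSynthPendingDepth 3
set_option linter.unusedSectionVars false

noncomputable section

namespace Vale.Agent.P216J

open P216R P216DC P216SG P216BF P216FA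

section time

variable {Q t s u x : ℝ}

theorem rs_le (hQ : 0 < Q) : Q * (x - t) ≤ s ↔ x ≤ t + s / Q := by
  rw [← le_div_iff₀' hQ, sub_le_iff_le_add']

theorem rs_lt (hQ : 0 < Q) : Q * (x - t) < s ↔ x < t + s / Q := by
  rw [← lt_div_iff₀' hQ, sub_lt_iff_lt_add']

theorem le_rs (hQ : 0 < Q) : s ≤ Q * (x - t) ↔ t + s / Q ≤ x := by
  rw [← not_lt, rs_lt hQ, not_lt]

theorem lt_rs (hQ : 0 < Q) : s < Q * (x - t) ↔ t + s / Q < x := by
  rw [← not_le, rs_le hQ, not_le]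

theorem rs_self (hQ : 0 < Q) : t + Q * (x - t) / Q = x := by field_simp; ring

variable {M : Type} {b d : M → ℝ} {T₀ T₁ : ℝ} {W : Set M}

theorem liv_rs (hQ : 0 < Q) : Liv (fun z => Q * (b z - t)) (fun z => Q * (d z - t)) s u =
    Liv b d (t + s / Q) (t + u / Q) := Set.ext fun _ => and_congr (rs_le hQ) (le_rs hQ)

theorem pre_rs (hQ : 0 < Q) : preS (fun z => Q * (b z - t)) (fun z => Q * (d z - t)) s =
    preS b d (t + s / Q) := Set.ext fun _ => and_congr (rs_lt hQ) (le_rs hQ)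

theorem post_rs (hQ : 0 < Q) : postS (fun z => Q * (b z - t)) (fun z => Q * (d z - t)) s =
    postS b d (t + s / Q) := Set.ext fun _ => and_congr (rs_le hQ) (lt_rs hQ)

theorem sl_rs (hQ : 0 < Q) : Sl (fun z => Q * (b z - t)) (fun z => Q * (d z - t)) (Q * (T₀ - t))
    (Q * (T₁ - t)) W s ↔ Sl b d T₀ T₁ W (t + s / Q) := by
  simp only [Sl, pre_rs hQ, post_rs hQ, mem_Ioc, mem_Ico, rs_le hQ, rs_lt hQ, le_rs hQ, lt_rs hQ]

end time

section static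

variable {M : Type} [TopologicalSpace M] [ChartedSpace E3 M] [IsManifold 𝓘(ℝ, E3) ∞ M]
  {g : Ten E3 M} {U : Set M} {x : M} {Q k l e a h δ ε C A w : ℝ}

theorem sg_sc (hQ : 0 < Q) : sg (Q • g) x = √Q * sg g x := by
  rw [sg, sg, sc_sc hQ, Real.sqrt_div' _ hQ.le, inv_div, div_eq_mul_inv]

theorem sg_nonneg : 0 ≤ sg g x := inv_nonneg.2 (Real.sqrt_nonneg _)

theorem bl_sc' (hQ : 0 < Q) : bl (Q • g) U x (√Q * l) = bl g U x l := by
  rw [bl_sc hQ, mul_div_cancel_left₀ _ (Real.sqrt_pos.2 hQ).ne']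

theorem al_sc (hQ : 0 < Q) : AL (Q • g) U x (√Q * l) (√Q * e) ↔ AL g U x l e := by
  simp only [AL, dd_sc hQ, ← mul_add, mul_le_mul_iff_right₀ (Real.sqrt_pos.2 hQ)]

theorem cen_sc (hQ : 0 < Q) (H : Cen g U x h δ) : Cen (Q • g) U x (√Q * h) δ := by
  have := H.smul (Real.sqrt_pos.2 hQ)
  rwa [Real.sq_sqrt hQ.le] at this

theorem pin_sc (hQ : 0 < Q) (H : Pin g U a) : Pin (Q • g) U (Q * a) := fun y hy η hη => by
  rw [SecGe_smul _ _ hQ, sc_sc hQ, mul_neg, mul_max_of_nonneg _ _ hQ.le, ← mul_div_assoc,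
    mul_div_cancel₀ _ hQ.ne', ← div_div, div_right_comm, mul_div_cancel₀ _ hQ.ne']
  exact H y hy η hη

theorem pin_age (hg : Met g U) (H : Pin g U a) {a' : ℝ} (h0 : 0 < a') (h1 : a' ≤ a) : Pin g U a' :=
  fun y hy η hη => secGe_mono hg hy (H y hy η hη) (by gcongr)

theorem dt_sc (hg : Met g U) (hx : x ∈ U) (hQ : 0 < Q) (H : DT C A g U x) :
    DT C A (Q • g) U x := by
  have q := Real.sqrt_pos.2 hQ
  have e : √Q ^ 2 = Q := Real.sq_sqrt hQ.le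
  refine ⟨(rmB_sc hg hx hQ _ _).2 (rmB_mono H.r0 (le_of_eq ?_)),
    (rmB_sc hg hx hQ _ _).2 (rmB_mono H.r1 (le_of_eq ?_)),
    (rmB_sc hg hx hQ _ _).2 (rmB_mono H.r2 (le_of_eq ?_)), fun y hy => ?_⟩
  · rw [sc_sc hQ, zero_add, e]; field_simp
  · rw [sc_sc hQ, Real.sqrt_div' _ hQ.le, show 1 + 2 = 2 + 1 from rfl, pow_succ, e]; field_simp
  · rw [sc_sc hQ, pow_add, e]; field_simp
  · rw [sg_sc hQ, mul_left_comm, bl_sc' hQ] at hy
    simpa only [sc_sc hQ, ← mul_div_assoc, div_le_div_iff_of_pos_right hQ] using H.two y hy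

variable [MeasurableSpace M] [BorelSpace M]

theorem vol_sc (hg : Met g U) (hU : IsLindelof U) (hQ : 0 < Q) :
    vol (Q • g) (bl (Q • g) U x (√Q * l)) = ENNReal.ofReal (√Q ^ 3) * vol g (bl g U x l) := by
  rw [bl_sc' hQ, smul_sq hQ, vol_smul hU (hg.isOpen_bl x _).measurableSet bl_subset
    (Real.sqrt_pos.2 hQ), finrank_E3]

theorem nt_sc (hg : Met g U) (hU : IsLindelof U) (hQ : 0 < Q) (H : NT ε A w g U x) :
    NT ε A w (Q • g) U x := by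
  have q := Real.sqrt_pos.2 hQ
  obtain ⟨ρ, h1, h2⟩ := H.thin
  rw [show NT ε A w (Q • g) U x ↔ _ from ⟨fun h => And.intro h.1 h.2, fun h => ⟨h.1, h.2⟩⟩,
    sg_sc hQ, mul_left_comm, al_sc hQ]
  refine ⟨fun h => cen_sc hQ (H.neck h), √Q * ρ,
    ⟨mul_le_mul_of_nonneg_left h1.1 q.le, mul_le_mul_of_nonneg_left h1.2 q.le⟩, ?_⟩
  rw [vol_sc hg hU hQ, mul_pow, mul_left_comm, ENNReal.ofReal_mul (by positivity)]
  gcongr

theorem cn_sc (hg : Met g U) (hU : IsLindelof U) (hx : x ∈ U) (hQ : 0 < Q) :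
    CN ε C A w (Q • g) U x ↔ CN ε C A w g U x := by
  have k : ∀ {g : Ten E3 M} {Q : ℝ}, Met g U → 0 < Q → CN ε C A w g U x →
      CN ε C A w (Q • g) U x := fun hg hQ H =>
    ⟨by rw [sc_sc hQ]; exact div_pos H.pos hQ, dt_sc hg hx hQ H.dt, nt_sc hg hU hQ H.nt⟩
  refine ⟨fun H => ?_, k hg hQ⟩
  have := k (hg.smul hQ) (inv_pos.2 hQ) H
  rwa [inv_smul_smul₀ hQ.ne'] at this

theorem tip_sc {c : ℕ → ℝ} (hg : Met g U) (hU : IsLindelof U) (hQ : 0 < Q)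
    (H : Tip c g U x h δ) : Tip c (Q • g) U x (√Q * h) δ := by
  have q := Real.sqrt_pos.2 hQ
  have e0 : √Q ^ 2 = Q := Real.sq_sqrt hQ.le
  have e : ∀ y, (√Q * h) ^ 2 * Sc (Q • g) y = h ^ 2 * Sc g y := fun y => by
    rw [sc_sc hQ, mul_pow, e0]; field_simp
  have b : bl (Q • g) U x (√Q * h / δ) = bl g U x (h / δ) := by rw [mul_div_assoc, bl_sc' hQ]
  refine ⟨H.mem, fun y hy => e y ▸ H.sc y (b ▸ hy), fun j hj y hy => ?_, e x ▸ H.top,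
    H.low.imp fun z hz => ⟨by rw [mul_left_comm, bl_sc' hQ]; exact hz.1, e z ▸ hz.2⟩,
    fun v => ?_, fun ρ hρ => ?_⟩
  · refine (rmB_sc hg (bl_subset hy) hQ _ _).2 (rmB_mono (H.rm j hj y (b ▸ hy)) (le_of_eq ?_))
    rw [mul_pow, ← div_div, div_right_comm, mul_div_cancel₀ _ (by positivity)]
  · rw [Ric_smul _ hQ.ne']
    refine le_of_eq_of_le ?_ (H.ric v)
    simp only [Pi.smul_apply, smul_apply, smul_eq_mul, mul_pow, e0]
    field_simp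
  · rw [← mul_div_cancel₀ ρ q.ne', vol_sc hg hU hQ]
    refine (mul_le_mul_right (H.vol (ρ / √Q) ⟨(le_div_iff₀' q).2 hρ.1, (div_le_iff₀' q).2
      (hρ.2.trans_eq (mul_div_assoc _ _ _))⟩) _).trans_eq ?_
    rw [← ENNReal.ofReal_mul (by positivity)]
    congr 1; ring

end static

section flow

variable {M : Type} [TopologicalSpace M] [ChartedSpace E3 M] [IsManifold 𝓘(ℝ, E3) ∞ M]
  {g : ℝ → Ten E3 M} {b d : M → ℝ} {U W : Set M} {x : M} {Q t s u r τ K T₀ T₁ : ℝ}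

theorem resc_resc (hQ : 0 < Q) : resc (resc g Q t) Q⁻¹ (-(Q * t)) = g := by
  funext u
  rw [resc, resc, inv_smul_smul₀ hQ.ne']
  congr 1
  field_simp
  ring

theorem rf_rs (hQ : 0 < Q) :
    RF (resc g Q t) (Icc s u) U ↔ RF g (Icc (t + s / Q) (t + u / Q)) U := by
  refine ⟨fun H => ?_, fun H => H.resc hQ t fun v hv =>
    ⟨by dsimp only; gcongr; exact hv.1, by dsimp only; gcongr; exact hv.2⟩⟩
  have := H.resc (J := Icc (t + s / Q) (t + u / Q)) (inv_pos.2 hQ) (-(Q * t)) fun v hv => by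
    have e : -(Q * t) + v / Q⁻¹ = Q * (v - t) := by field_simp; ring
    simp only [e]
    exact ⟨(le_rs hQ).2 hv.1, (rs_le hQ).2 hv.2⟩
  exact resc_resc (g := g) (t := t) hQ ▸ this

theorem par_rs (hQ : 0 < Q) :
    Par (resc g Q t) U x s r τ ↔ Par g U x (t + s / Q) (r / √Q) (τ / Q) := by
  rw [Par, Par, rf_rs hQ, resc, bl_sc hQ, sub_div, add_sub_assoc]

theorem parB_rs (hQ : 0 < Q) :
    ParB (resc g Q t) U x s r τ K ↔ ParB g U x (t + s / Q) (r / √Q) (τ / Q) (Q * K) := by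
  rw [ParB, ParB, par_rs hQ]
  refine and_congr_right fun H => ?_
  have e : ∀ v ∈ Icc (t + s / Q - τ / Q) (t + s / Q), ∀ y ∈ bl (g (t + s / Q)) U x (r / √Q),
      (RmB (Q • g v) 0 y K ↔ RmB (g v) 0 y (Q * K)) := fun v hv y hy => by
    rw [rmB_sc (RF.met H hv) hy hQ, zero_add, Real.sq_sqrt hQ.le]
  rw [resc, bl_sc hQ]
  refine ⟨fun k v hv y hy => (e v hv y hy).1 ?_, fun k v hv y hy => ?_⟩
  · have := k (Q * (v - t)) ⟨(le_rs hQ).2 (by rw [sub_div, ← add_sub_assoc]; exact hv.1),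
      (rs_le hQ).2 hv.2⟩ y hy
    rwa [resc, rs_self hQ] at this
  · have m : t + v / Q ∈ Icc (t + s / Q - τ / Q) (t + s / Q) :=
      ⟨by rw [add_sub_assoc, ← sub_div]; gcongr; exact hv.1, by gcongr; exact hv.2⟩
    exact (e _ m y hy).2 (k _ m y hy)

theorem sf_rs (hQ : 0 < Q) (H : SF g b d T₀ T₁) : SF (resc g Q t) (fun z => Q * (b z - t))
    (fun z => Q * (d z - t)) (Q * (T₀ - t)) (Q * (T₁ - t)) where
  lt := by gcongr; exact H.lt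
  fin := (H.fin.image fun v => Q * (v - t)).subset (by
    rintro _ (⟨z, rfl⟩ | ⟨z, rfl⟩)
    exacts [⟨_, .inl ⟨z, rfl⟩, rfl⟩, ⟨_, .inr ⟨z, rfl⟩, rfl⟩])
  ge z := by gcongr; exact H.ge z
  dead z s hs := by
    rw [resc, Pi.smul_apply, H.dead z _ fun k => hs ⟨(rs_le hQ).2 k.1, (le_rs hQ).2 k.2⟩, smul_zero]
  rf s u h1 h2 := by
    rw [liv_rs hQ, rf_rs hQ]
    exact H.rf _ _ (by gcongr) ((le_rs hQ).1 h2)
  hs s u h1 h2 := by
    rw [liv_rs hQ]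
    exact H.hs _ _ (by gcongr) ((le_rs hQ).1 h2)
  cpt s hs := by
    rw [post_rs hQ]
    exact H.cpt _ ((lt_rs hQ).1 hs)

theorem sf_bdd (H : SF g b d T₀ T₁) : ∃ B, ∀ W s, Sl b d T₀ T₁ W s → ∀ y ∈ W, Sc (g s) y ≤ B := by
  refine (H.ind (P := fun t => ∃ B, ∀ W s, Sl b d T₀ t W s → ∀ y ∈ W, Sc (g s) y ≤ B)
    (Q := fun t => ∃ B, ∀ W s, Sl b d T₀ t W s → ∀ y ∈ W, Sc (g s) y ≤ B)
    ⟨0, fun W s h => by rcases h with h | h <;> simp at h⟩ (fun s t _ h1 h2 hg ⟨B, hB⟩ => ?_)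
    fun _ _ h => h).1 T₁ ⟨H.lt, le_rfl⟩
  obtain ⟨C, hC⟩ := (isCompact_Icc.prod (H.isCompact_liv h1 h2 hg)).bddAbove_image
    (H.rf s t h1 h2).toFam.continuousOn_Sc
  refine ⟨max B C, fun W u hW y hy => ?_⟩
  rcases hW with ⟨hu, rfl⟩ | ⟨hu, rfl⟩
  · rcases le_or_gt u s with k | k
    · exact (hB _ u (sl_pre ⟨hu.1, k⟩) y hy).trans (le_max_left _ _)
    · exact (hC ⟨(u, y), ⟨⟨k.le, hu.2⟩, hg.preS_eq ⟨k, hu.2⟩ ▸ hy⟩, rfl⟩).trans (le_max_right _ _)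
  · rcases lt_or_ge u s with k | k
    · exact (hB _ u (sl_post ⟨hu.1, k⟩) y hy).trans (le_max_left _ _)
    · exact (hC ⟨(u, y), ⟨⟨k, hu.2.le⟩, hg.postS_eq ⟨k, hu.2⟩ ▸ hy⟩, rfl⟩).trans (le_max_right _ _)

theorem prec_le (h : Prec b d U t W s) : s ≤ t := h.elim (fun h => h.1.le) fun h => h.1.le

theorem prec_trans {V : Set M} (h : Prec b d U t W s) (k : Prec b d W s V u) : Prec b d U t V u := by
  rcases k with ⟨rfl, rfl⟩ | k
  exacts [h, .inr ⟨k.1.trans_le (prec_le h), k.2⟩]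

theorem prec_sl (h : Prec b d U t W s) (hU : Sl b d T₀ T₁ U t) (hs : T₀ ≤ s) : Sl b d T₀ T₁ W s := by
  rcases h with ⟨rfl, rfl⟩ | ⟨k, rfl⟩
  exacts [hU, sl_post ⟨hs, k.trans_le hU.mem_Icc.2⟩]

theorem prec_rs (hQ : 0 < Q) : Prec (fun z => Q * (b z - t)) (fun z => Q * (d z - t)) U 0 W s ↔
    Prec b d U t W (t + s / Q) := by
  simp only [Prec, post_rs hQ, add_eq_left, div_eq_zero_iff, hQ.ne', or_false, add_lt_iff_neg_left,
    div_neg_iff, hQ, hQ.not_gt, and_true, and_false, false_or]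

variable [MeasurableSpace M] [BorelSpace M] {F : Dat M} {c : ℕ → ℝ} {y z : M}
  {r' τ' κ CD a a' h δ : ℝ}

theorem srgL_rs (hQ : 0 < Q) (H : SF g b d T₀ T₁) (hs : t + s / Q ∈ Ico T₀ T₁)
    (k : SrgL c g b d (t + s / Q) h δ) : SrgL c (resc g Q t) (fun z => Q * (b z - t))
      (fun z => Q * (d z - t)) s (√Q * h) δ := by
  refine ⟨?_, ?_⟩
  · rw [post_rs hQ, resc]
    intro z hz e
    obtain ⟨p, h1, h2⟩ := k.born z hz (by rw [← e, rs_self hQ])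
    exact ⟨p, tip_sc (H.met (sl_post hs)) (H.sl_cpt (sl_post hs)).isLindelof hQ h1,
      by rwa [mul_left_comm, bl_sc' hQ]⟩
  · rw [post_rs hQ, pre_rs hQ, liv_rs hQ, resc, mul_pow, Real.sq_sqrt hQ.le,
      show t + (s - Q * h ^ 2 / 2) / Q = t + s / Q - h ^ 2 / 2 by field_simp; ring]
    simpa only [mul_div_assoc, bl_sc' hQ] using k.died

theorem reg_mono (H : F.Reg r τ W s y) (h1 : r ≤ r') (h2 : τ ≤ τ') : F.Reg r' τ' W s y :=
  ⟨H.prec, by linarith [H.le], H.mem, by linarith [H.dle]⟩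

theorem reg_sl (hB : F.Bas c) (h : F.T₀ < F.t - τ) (H : F.Reg r τ W s y) :
    Sl F.b F.d F.T₀ F.T₁ W s := prec_sl H.prec hB.sl (h.le.trans H.le)

theorem reg_at {V : Set M} (H : F.Reg r τ W s y) (k : (F.at W s y).Reg r' τ' V u z) :
    F.Reg (r + r') (τ + τ') V u z :=
  ⟨prec_trans H.prec k.prec, by have : s - τ' ≤ u := k.le; linarith [H.le], k.mem, by
    have : F.D V u z ≤ F.D W s y + r' := k.dle
    linarith [H.dle]⟩

theorem reg_rs (hQ : 0 < Q) :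
    (F.rs Q).Reg (√Q * r) (Q * τ) W s y ↔ F.Reg r τ W (F.t + s / Q) y := by
  have e1 : 0 - Q * τ ≤ s ↔ F.t - τ ≤ F.t + s / Q := by
    rw [← rs_le hQ, sub_sub_cancel_left, mul_neg, zero_sub]
  have e2 : √Q * F.D W (F.t + s / Q) y ≤ √Q * F.D F.U (F.t + 0 / Q) F.x + √Q * r ↔
      F.D W (F.t + s / Q) y ≤ F.D F.U F.t F.x + r := by
    rw [zero_div, add_zero, ← mul_add, mul_le_mul_iff_right₀ (Real.sqrt_pos.2 hQ)]
  exact ⟨fun H => ⟨(prec_rs hQ).1 H.prec, e1.1 H.le, H.mem, e2.1 H.dle⟩,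
    fun H => ⟨(prec_rs hQ).2 H.prec, e1.2 H.le, H.mem, e2.2 H.dle⟩⟩

theorem env_mono (H : F.Env κ CD r τ a) (h1 : r' ≤ r) (h2 : τ' ≤ τ) (h3 : 0 < a') (h4 : a' ≤ a)
    (hm : ∀ W s, Sl F.b F.d F.T₀ F.T₁ W s → Met (F.g s) W) : F.Env κ CD r' τ' a' where
  init := by linarith [H.init]
  pin W s hW hs := pin_age (hm W s hW) (H.pin W s hW ⟨by linarith [hs.1], hs.2⟩) h3 h4
  d1 W s y k := H.d1 W s y (reg_mono k h1 h2)
  d2 W s y k ρ hρ σ hσ e := H.d2 W s y (reg_mono k h1 h2) ρ ⟨hρ.1, hρ.2.trans h1⟩ σ hσ (by linarith)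
  nc W s y k ρ hρ := H.nc W s y (reg_mono k h1 h2) ρ ⟨hρ.1, hρ.2.trans h1⟩

theorem env_at (H : F.Env κ CD r τ a) (h1 : 0 ≤ r') (k : F.Reg r' τ' W s y) :
    (F.at W s y).Env κ CD (r - r') (τ - τ') a := by
  have e : ∀ {V u z}, (F.at W s y).Reg (r - r') (τ - τ') V u z → F.Reg r τ V u z := fun h => by
    simpa using reg_at k h
  have e1 : F.t - τ ≤ s - (τ - τ') := by linarith [k.le]
  exact ⟨H.init.trans_le e1, fun V u hV hu => H.pin V u hV ⟨e1.trans hu.1, hu.2.trans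
    (prec_le k.prec)⟩, fun V u z h => H.d1 V u z (e h), fun V u z h ρ hρ σ hσ h' =>
    H.d2 V u z (e h) ρ ⟨hρ.1, by linarith [hρ.2]⟩ σ hσ (e1.trans h'),
    fun V u z h ρ hρ => H.nc V u z (e h) ρ ⟨hρ.1, by linarith [hρ.2]⟩⟩

theorem bas_rs (hQ : 0 < Q) (H : F.Bas c) : (F.rs Q).Bas c where
  sf := sf_rs hQ H.sf
  con W _ h := H.con W _ ((sl_rs hQ).1 h)
  sl := (sl_rs hQ).2 (by simpa [Dat.rs] using H.sl)
  mem := H.mem
  hpos := mul_pos (Real.sqrt_pos.2 hQ) H.hpos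
  dpos := H.dpos
  srg s hs := by
    have k : F.t + s / Q ∈ Ioo F.T₀ F.T₁ := ⟨(rs_lt hQ).1 hs.1, (lt_rs hQ).1 hs.2⟩
    exact srgL_rs hQ H.sf (Ioo_subset_Ico_self k) (H.srg _ k)
  ori W _ h := H.ori W _ ((sl_rs hQ).1 h)
  sep W _ h := H.sep W _ ((sl_rs hQ).1 h)

theorem env_rs (hQ : 0 < Q) (hB : F.Bas c) (H : F.Env κ CD r τ a) :
    (F.rs Q).Env κ CD (√Q * r) (Q * τ) (Q * a) := by
  have q := Real.sqrt_pos.2 hQ
  have e1 : ∀ {s}, 0 - Q * τ ≤ s ↔ F.t - τ ≤ F.t + s / Q := fun {s} => by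
    rw [← rs_le hQ, sub_sub_cancel_left, mul_neg, zero_sub]
  have e2 : ∀ {ρ}, ρ ∈ Ioc 0 (√Q * r) → ρ / √Q ∈ Ioc 0 r := fun h =>
    ⟨div_pos h.1 q, (div_le_iff₀' q).2 h.2⟩
  refine ⟨?_, fun W s hW hs => pin_sc hQ (H.pin W _ ((sl_rs hQ).1 hW) ⟨e1.1 hs.1,
    add_le_of_nonpos_right (div_nonpos_of_nonpos_of_nonneg hs.2 hQ.le)⟩), fun W s y k z hz => ?_,
    fun W s y k ρ hρ σ hσ h1 h2 => ?_, fun W s y k ρ hρ => ?_⟩
  · show Q * (F.T₀ - F.t) < 0 - Q * τ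
    nlinarith [H.init]
  · show √Q * _ ≤ √Q * _ + dd (Q • _) W y z
    rw [dd_sc hQ, ← mul_add]
    exact mul_le_mul_of_nonneg_left (H.d1 W _ y ((reg_rs hQ).1 k) z hz) q.le
  · have := H.d2 W _ y ((reg_rs hQ).1 k) _ (e2 hρ) (σ / Q) ⟨div_pos hσ.1 hQ, by
      rw [div_pow, Real.sq_sqrt hQ.le]; gcongr; exact hσ.2⟩
      (by rw [add_sub_assoc, ← sub_div]; exact e1.1 h1) (by
        rw [← mul_div_assoc, div_pow, Real.sq_sqrt hQ.le, one_div_div, div_eq_mul_one_div Q]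
        exact (parB_rs hQ).1 h2)
    show √Q * F.D (postS (fun z => Q * (F.b z - F.t)) (fun z => Q * (F.d z - F.t)) (s - σ))
      (F.t + (s - σ) / Q) y ≤ √Q * F.D W (F.t + s / Q) y + CD * ρ
    rw [post_rs hQ, sub_div, ← add_sub_assoc]
    refine (mul_le_mul_of_nonneg_left this q.le).trans_eq ?_
    field_simp
  · have k' := (reg_rs hQ).1 k
    have s1 := reg_sl hB H.init k'
    exact (nc_sc (hB.sf.met s1) hQ (((hB.sf.met s1).cpl (hB.sf.sl_cpt s1)).cpt k'.mem _)).2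
      (H.nc W _ y k' _ (e2 hρ))

theorem sneck_rs {φ : E3 → M} (hQ : 0 < Q) (H : SNeck (resc g Q t) U φ 0 (√Q * h) δ) :
    SNeck g U φ t h δ := by
  have q := Real.sqrt_pos.2 hQ
  refine ⟨?_, ?_⟩
  · have := H.neck.smul (inv_pos.2 q)
    rwa [resc_zero, inv_pow, Real.sq_sqrt hQ.le, inv_smul_smul₀ hQ.ne',
      inv_mul_cancel_left₀ q.ne'] at this
  · have := (rf_rs hQ).1 H.rf
    rwa [zero_div, add_zero, mul_pow, Real.sq_sqrt hQ.le,
      show t + (0 - Q * h ^ 2 / 2) / Q = t - h ^ 2 / 2 by field_simp; ring] at this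

end flow

theorem scale : SCALE where
  sfb _ _ _ _ _ _ H := sf_bdd H
  clo _ _ _ W s H h := ⟨H.sf.met h, H.sf.sl_hs h, H.con W s h, H.sf.sl_cpt h⟩
  regSl _ _ _ _ _ _ _ _ H h k := reg_sl H h k
  envMono _ _ _ _ _ _ _ _ _ _ H h1 h2 h3 h4 hm := env_mono H h1 h2 h3 h4 hm
  ctlMono _ _ _ _ _ H h1 h2 := ⟨H.bas, env_mono H.env h2 h2 h1 h2 fun _ _ h => H.bas.sf.met h,
    fun W s y k => H.cn W s y (reg_mono k h2 h2)⟩
  atBas _ _ _ _ _ _ H h hy := ⟨H.sf, H.con, h, hy, H.hpos, H.dpos, H.srg, H.ori, H.sep⟩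
  atReg _ _ _ _ _ _ _ _ _ _ _ _ H k := reg_at H k
  atEnv _ _ _ _ _ _ _ _ _ _ _ _ H h1 _ k := env_at H h1 k
  rsBas _ _ _ _ hQ H := bas_rs hQ H
  rsReg _ _ _ _ _ _ _ _ hQ := reg_rs hQ
  rsEnv _ _ _ _ _ _ _ _ _ hQ hB H := env_rs hQ hB H
  rsCN _ _ _ _ _ _ _ _ _ hQ H hx := cn_sc H.met H.cpt.isLindelof hx hQ
  rsNeck _ _ _ _ _ _ _ _ hQ H := sneck_rs hQ H
  dtMono _ g U x C A C' A' h0 h1 h2 h3 H :=
    ⟨rmB_mono H.r0 (by gcongr), rmB_mono H.r1 (by gcongr), rmB_mono H.r2 (by gcongr),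
      fun y hy => by
        have k := H.two y (bl_mono (mul_le_mul_of_nonneg_right h3 sg_nonneg) hy)
        have p : 0 ≤ Sc g y := by
          by_contra! n
          nlinarith [k.1]
        exact ⟨k.1.trans (by gcongr), k.2.trans (by gcongr)⟩⟩
  ntMono _ g U x ε w A A' h H :=
    have k : A * sg g x ≤ A' * sg g x := mul_le_mul_of_nonneg_right h sg_nonneg
    ⟨fun ⟨p, hp, q, hq, h1, h2, h3⟩ => H.neck ⟨p, hp, q, hq, k.trans h1, k.trans h2, h3⟩,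
      H.thin.imp fun _ hρ => ⟨⟨hρ.1.1, hρ.1.2.trans k⟩, hρ.2⟩⟩

end Vale.Agent.P216J
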