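import Vale.Agent.P216MP.VsF
import Vale.Agent.P216R.Exist
import Vale.Agent.P216FL.OriC
import Vale.Agent.P216T.Cov

/-!
# Three small blocks: lower bound for the scalar curvature, curvature bound, invariance of the class
-/

open Set Filter Topology Function
open scoped ContDiff Manifold

set_option maxSynthPendingDepth 3

noncomputable section

namespace Vale.Agent.P216J

open P216R P216MP P216BF

theorem rmin : P216C.RMIN := by
  intro M _ _ _ g U s t c hst hc H hU _ h0 x hx
  have := rf_sc_inv H hU (c := 2 * (s + c)) (fun u hu => by linarith [hu.1])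
    (fun y hy => by rw [neg_div]; exact h0 y hy) t ⟨hst, le_rfl⟩ x hx
  rwa [neg_div, show 2 * (s + c) + 2 * (t - s) = 2 * (t + c) by ring] at this

theorem scb : SCB E3 := by
  intro M _ _ _ U g a b Θ hU _ hab H hb
  have ha : a ∈ Ico a b := ⟨le_rfl, hab⟩
  have m := H.toFam.met ha
  obtain ⟨K, hK⟩ := hU.bddBelow_image ((continuousOn_nu H.toFam).comp (f := fun z => (a, z))
    (by fun_prop) fun z hz => ⟨ha, hz⟩)
  have h1 : 0 < (2 * |K| + 1)⁻¹ := by positivity
  refine ⟨|Θ| + 3 * (max |Θ| (Real.exp (3 + 1 / 1) / (2 * |K| + 1)⁻¹) / 2), fun t ht x hx => ?_⟩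
  have k : PinchAt (g t) x (2 * |K| + 1)⁻¹ := Pinch.mono (rf_pinch (SF.rf_sub H
    (Icc_subset_Ico_right ht.2) H.isOpen Subset.rfl) hU h1 (fun z hz => pinchAt_of_secGe
      (κ := |K|) m hz h1 ((secGe_iff m hz).2 ((neg_abs_le K).trans (hK ⟨z, hz, rfl⟩))) (by
        rw [mul_inv_le_iff₀ (by positivity)]; linarith)) t ⟨ht.1, le_rfl⟩ x hx) h1
    (by linarith [ht.1])
  have n := H.toFam.met ht
  have k2 := (hb t ht x hx).trans (le_abs_self Θ)
  refine rmB3 finrank_E3 n hx (by positivity) (abs_nonneg _)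
    (secGe_mono n hx (k.secGe n hx h1 one_pos) ?_) k2
  rw [one_mul]
  gcongr

theorem imgClosed (G : Type) [Group G] : ImgClosed (P216C.Cl G) := by
  intro M _ _ _ M' _ _ _ U i h hi hC
  refine ⟨hC.1.homeo ((Equiv.Set.imageOfInjOn i U hi).toHomeomorphOfContinuousOpen ?_ ?_),
    hC.2.image h hi⟩
  · exact Continuous.subtype_mk (continuousOn_iff_continuous_domRestrict.1
      fun x hx => (h.continuousAt hx).continuousWithinAt) _
  · intro W hW
    have := (h.isOpen_image (h.isOpen.isOpenMap_subtype_val W hW)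
      (Subtype.coe_image_subset _ _)).preimage (continuous_subtype_val (p := (· ∈ i '' U)))
    convert this using 1
    ext y
    constructor
    · rintro ⟨x, hx, rfl⟩
      exact ⟨x, ⟨x, hx, rfl⟩, rfl⟩
    · rintro ⟨_, ⟨x, hx, rfl⟩, e⟩
      exact ⟨x, hx, Subtype.ext e⟩

end Vale.Agent.P216J
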