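import Vale.Agent.P216J.Lim

/-!
# A Ricci flow with bounded curvature derivatives extends to the closed interval
-/

open Set Filter Topology Function
open scoped ContDiff Manifold

set_option maxSynthPendingDepth 3
set_option linter.unusedSectionVars false

noncomputable section

namespace Vale.Agent.P216J

open P216R P219.RG P216G P216U

variable {ι E : Type} [NormedAddCommGroup E] [NormedSpace ℝ E] [FiniteDimensional ℝ E]
  {X : Type} [TopologicalSpace X] [ChartedSpace E X] [IsManifold 𝓘(ℝ, E) ∞ X]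
  {I : Set ℝ} {W : Set X} {s : ℝ} {g : ℝ → Ten E X}

theorem tcv_smul {l : Filter ι} {k : Ten E X} (hm : Met k W) {c : ι → ℝ}
    (hc : Tendsto c l (𝓝 1)) : TCv l (fun n => c n • k) k W := fun z => by
  have n := Nice.of_isOpen (isOpen_dom (E := E) z hm.isOpen)
  have h1 : Cv l (dom E z W) (fun n _ => c n) fun _ => (1 : ℝ) := by
    refine ⟨fun u hu j => bdAt_of_bj ((isOpen_dom z hm.isOpen).mem_nhds hu) (.const ⟨2, ?_⟩),
      fun _ _ => hc⟩
    exact (tendsto_fst.eventually (hc.norm.eventually (eventually_le_nhds (by simp))))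
  have h2 := P216S.cv_smul n h1 (.const n.ud (hm.smooth z))
  simp only [co_smul, one_smul] at h2 ⊢
  exact h2

theorem cont_pt (H : RF g I W) {x : X} (hx : x ∈ W) : ContinuousOn (fun t => g t x) I :=
  fun t ht => (H.eqn t ht x hx).continuousWithinAt

/-- **extension to the closure of a bounded interval** -/
theorem exists_close {a b : ℝ} (hab : a < b) (h1 : Ioo a b ⊆ I) (h2 : I ⊆ Icc a b) (H : RF g I W)
    (hB : ∀ y ∈ W, ∃ V ∈ 𝓝 y, ∀ k, ∃ C, ∀ t ∈ Ioo a b, ∀ z ∈ V, RmB (g t) k z C) :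
    ∃ h, RF h (Icc a b) W ∧ ∀ t ∈ I, h t = g t := by
  classical
  set s := (a + b) / 2 with hs
  have s1 : s ∈ Ioo a b := ⟨by linarith, by linarith⟩
  let U : Ultrafilter ℝ := .of (𝓝[>] 1)
  have u1 : (U : Filter ℝ) ≤ 𝓝[>] 1 := Ultrafilter.of_le _
  have u2 : Tendsto id (U : Filter ℝ) (𝓝 1) := u1.trans nhdsWithin_le_nhds
  have u3 : ∀ᶠ c in (U : Filter ℝ), c ∈ Ioo 1 2 := u1 (Ioo_mem_nhdsGT one_lt_two)
  have m : ∀ c ∈ Ioo (1 : ℝ) 2, ∀ t ∈ Icc a b, s + (t - s) / c ∈ Ioo a b := fun c hc t ht => by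
    have c0 : 0 < c := one_pos.trans hc.1
    constructor
    · rw [← sub_lt_iff_lt_add', lt_div_iff₀ c0]; nlinarith [hc.1, ht.1, s1.1]
    · rw [← lt_sub_iff_add_lt', div_lt_iff₀ c0]; nlinarith [hc.1, ht.2, s1.2]
  obtain ⟨h, r, f, -⟩ := exists_lim (U := U) (g := fun c t => c • g (s + (t - s) / c))
    (I := Icc a b) ordConnected_Icc (by simp [hab]) (Ioo_subset_Icc_self s1)
    (H.toFam.met (h1 s1)) (by simpa using tcv_smul (H.toFam.met (h1 s1)) u2)
    fun p q _ hpq _ y hy => by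
      obtain ⟨V, V1, V2⟩ := hB y hy
      obtain ⟨V', k1, k2, k3⟩ := _root_.mem_nhds_iff.1 (inter_mem V1 (H.isOpen.mem_nhds hy))
      refine ⟨V', k2, k3, u3.mono fun c hc => rf_resc (rf_mono H Subset.rfl k2 fun _ h => (k1 h).2)
        (one_pos.trans hc.1) _ _ fun t ht => h1 (m c hc t (hpq ht)), fun k => ?_⟩
      obtain ⟨C, hC⟩ := V2 k
      refine ⟨2 * C, u3.mono fun c hc t ht z hz v hv => ?_⟩
      have k4 := hC _ (m c hc t (hpq ht)) z (k1 hz).1
      refine (rmB_smul (H.toFam.met (h1 (m c hc t (hpq ht)))) (k1 hz).2 hc.1.le k4 v hv).trans ?_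
      exact mul_le_mul_of_nonneg_right hc.2.le ((abs_nonneg _).trans (k4 0 fun _ => by simp))
  have e : ∀ t ∈ I, EqOn (g t) (h t) W := fun t ht x hx => by
    have t1 : Tendsto (fun c => s + (t - s) / c) (U : Filter ℝ) (𝓝[I] t) := by
      refine tendsto_nhdsWithin_iff.2 ⟨?_, u3.mono fun c hc => h1 (m c hc t (h2 ht))⟩
      simpa using ((tendsto_const_nhds (x := t - s)).div u2 one_ne_zero).const_add s
    have t2 := u2.smul ((cont_pt H hx t ht).tendsto.comp t1)
    rw [one_smul] at t2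
    exact tendsto_nhds_unique t2 ((fcv_slice (nice_of ordConnected_Icc (by simp [hab]))
      H.isOpen f (h2 ht)).lim hx)
  refine ⟨fun t => if t ∈ I then g t else h t, rf_congr r fun t _ x hx => ?_,
    fun t ht => if_pos ht⟩
  by_cases k : t ∈ I
  · rw [if_pos k]; exact e t k hx
  · rw [if_neg k]

/-- the case of a half open interval -/
theorem exists_close_Ico {a b : ℝ} (hab : a < b) (H : RF g (Ico a b) W)
    (hB : ∀ y ∈ W, ∃ V ∈ 𝓝 y, ∀ k, ∃ C, ∀ t ∈ Ioo a b, ∀ z ∈ V, RmB (g t) k z C) :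
    ∃ h, RF h (Icc a b) W ∧ ∀ t ∈ Ico a b, h t = g t :=
  exists_close hab Ioo_subset_Ico_self Ico_subset_Icc_self H hB

/-- curvature derivatives of a smooth family are locally bounded on compact time intervals -/
theorem locB_of_rf {a b : ℝ} (H : RF g (Icc a b) W) {y : X} (hy : y ∈ W) :
    ∃ V ∈ 𝓝 y, ∀ k, ∃ C, ∀ t ∈ Icc a b, ∀ z ∈ V, RmB (g t) k z C := by
  have := FiniteDimensional.proper_real E
  obtain ⟨K, K1, K2, K3⟩ := local_compact_nhds
    ((isOpen_dom y H.isOpen).mem_nhds (pt_mem_dom (E := E) hy))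
  refine ⟨(chartAt E y).source ∩ chartAt E y ⁻¹' K, inter_mem
    ((chartAt E y).open_source.mem_nhds (mem_chart_source E y))
    ((chartAt E y).continuousAt (mem_chart_source E y) K1), fun k => ?_⟩
  have r := rf_co H y
  have c := (isCompact_Icc (a := a) (b := b)).prod K3
  have mt : Mt (𝓟 (Icc a b ×ˢ K)) Prod.snd fun q => co (g q.1) y :=
    eventually_principal.2 fun q hq => ⟨_, met_of r hq.1, K2 hq.2⟩
  have s0 := r.toFam.contDiffOn_model
  have key : ∀ j, ∀ {F : Type} [NormedAddCommGroup F] [NormedSpace ℝ F] {f : ℝ → E → F},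
      ContDiffOn ℝ ∞ (fun p : ℝ × E => f p.1 p.2) (Icc a b ×ˢ dom E y W) →
      BJ (𝓟 (Icc a b ×ˢ K)) Prod.snd j fun q => f q.1 := fun j => by
    have h0 : ∀ {F : Type} [NormedAddCommGroup F] [NormedSpace ℝ F] {f : ℝ → E → F},
        ContDiffOn ℝ ∞ (fun p : ℝ × E => f p.1 p.2) (Icc a b ×ˢ dom E y W) →
        BJ (𝓟 (Icc a b ×ˢ K)) Prod.snd 0 fun q => f q.1 := fun hf =>
      .zero_of (eventually_principal.2 fun q hq => sm_slice r.isOpen hf hq.1 (K2 hq.2))
        (c.exists_bound_of_continuousOn (hf.continuousOn.mono (prod_mono Subset.rfl K2)))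
    induction j with
    | zero => exact h0
    | succ j ih =>
      intro F _ _ f hf
      exact (h0 hf).succ (ih (f := fun t => fderiv ℝ (f t)) (sm_fderiv r.isOpen hf))
  have p : UPos (𝓟 (Icc a b ×ˢ K)) fun q => co (g q.1) y q.2 := by
    obtain ⟨c, c0, hc⟩ := (c.prod (isCompact_sphere (0 : E) 1)).exists_forall_le'
      (f := fun q : (ℝ × E) × E => co (g q.1.1) y q.1.2 q.2 q.2) (a := 0)
      ((((s0.continuousOn.mono (prod_mono Subset.rfl K2)).comp continuousOn_fst
        fun _ h => h.1).clm_apply continuousOn_snd).clm_apply continuousOn_snd)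
      fun q hq => r.pos _ hq.1.1 _ (K2 hq.1.2) _ (Metric.ne_of_mem_sphere hq.2 one_ne_zero)
    refine ⟨c, c0, eventually_principal.2 fun q hq v => ?_⟩
    rcases eq_or_ne v 0 with rfl | hv
    · simp
    have n := norm_pos_iff.2 hv
    have := hc (q, ‖v‖⁻¹ • v) ⟨hq, by simp [norm_smul, n.ne']⟩
    simp only [map_smul, smul_apply, smul_eq_mul] at this
    rwa [← mul_assoc, ← sq, inv_pow, le_inv_mul_iff₀' (by positivity)] at this
  obtain ⟨C, hC⟩ := mt.rmB p (key (k + 2) (f := fun t => co (g t) y) s0)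
  refine ⟨C, fun t ht z hz => ?_⟩
  have := (rmB_co (H.toFam.met ht) (K2 hz.2)).1
    (eventually_principal.1 hC (t, chartAt E y z) ⟨ht, hz.2⟩)
  rwa [(chartAt E y).left_inv hz.1] at this

end Vale.Agent.P216J
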