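import Vale.Agent.P216J.Close
import Vale.Agent.P216R.Max
import Vale.Agent.P216DC.LimS
import Vale.Agent.P216B.Top

/-!
# A flow with bounded curvature on a closed 3-manifold extends to the closed interval
-/

open Set Filter Topology Function
open scoped ContDiff Manifold

set_option maxSynthPendingDepth 3

noncomputable section

namespace Vale.Agent.P216J

open P216R

theorem close (hs : P216DC.SHI) : CLOSE E3 := by
  intro M _ _ _ U g a b C hc hH hab H hB
  have hm : (a + b) / 2 ∈ Ioo a b := ⟨by linarith, by linarith⟩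
  have s1 : Icc a ((a + b) / 2) ⊆ Ico a b := Icc_subset_Ico_right hm.2
  obtain ⟨h, h1, h2⟩ := exists_close_Ico hab H fun y hy => by
    obtain ⟨V, V1, V2⟩ := locB_of_rf (rf_mono H s1 H.isOpen Subset.rfl) hy
    refine ⟨V ∩ U, inter_mem V1 (H.isOpen.mem_nhds hy), fun k => ?_⟩
    obtain ⟨C1, c1⟩ := V2 k
    obtain ⟨C2, c2⟩ := hs k C 1 ((b - a) / 2) ((b - a) / 2) one_pos (by linarith)
    refine ⟨max C1 C2, fun t ht z hz v hv => ?_⟩
    rcases le_total t ((a + b) / 2) with k1 | k1
    · exact (c1 t ⟨ht.1.le, k1⟩ z hz.1 v hv).trans (le_max_left _ _)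
    have m := H.toFam.met (Ioo_subset_Ico_self ht)
    have s2 : Icc (t - (b - a) / 2) t ⊆ Ico a b := fun s hs =>
      ⟨by linarith [hs.1], hs.2.trans_lt ht.2⟩
    exact (c2 M g U z t m hH (fun r _ => m.isCompact_cbl hc Subset.rfl cbl_subset)
      ⟨rf_mono H s2 (m.isOpen_bl _ _) bl_subset, fun s k2 w hw => hB s (s2 k2) w (bl_subset hw)⟩
      t ⟨by linarith, le_rfl⟩ z (mem_bl_self hz.2 one_half_pos) v hv).trans (le_max_right _ _)
  exact ⟨h, h1, fun t ht _ _ => by rw [h2 t ht]⟩

end Vale.Agent.P216J
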