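import Vale.Agent.P216J.Time

/-!
# Propagation of spatial jets along a Ricci flow with bounded curvature derivatives
-/

open Set Filter Topology Function
open scoped ContDiff

set_option maxSynthPendingDepth 3
set_option linter.unusedSectionVars false

noncomputable section

namespace Vale.Agent.P216J

open P216R P219.RG P216G P216U

variable {ι E : Type} [NormedAddCommGroup E] [NormedSpace ℝ E] [FiniteDimensional ℝ E]
  {l : Filter ι} {k : ℕ}

section point

variable {G : E → Bil E} {V : Set E} {y : E} {C : ℝ}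

theorem rmB_model : RmB G k y C ↔
    ∀ v : Fin (k + 4) → E, (∀ i, G y (v i) (v i) ≤ 1) → |rmG G k (y, v)| ≤ C := by
  simp only [RmB, Rm, co_model, pt_model]

theorem rmB_nonneg (h : RmB G k y C) : 0 ≤ C :=
  (abs_nonneg _).trans (h 0 fun _ => by simp)

theorem rm_le (m : IsMetricOn G V) (hy : y ∈ V) (h : RmB G k y C) (v : Fin (k + 4) → E)
    {c : Fin (k + 4) → ℝ} (hc : ∀ i, 0 < c i) (hv : ∀ i, G y (v i) (v i) ≤ c i ^ 2) :
    |rmG G k (y, v)| ≤ C * ∏ i, c i := by
  have h1 := ((tn_rmG m k).ml hy).map_smul_univ c fun i => (c i)⁻¹ • v i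
  simp only [smul_inv_smul₀ (hc _).ne', Tn.ml_apply] at h1
  have h2 := rmB_model.1 h (fun i => (c i)⁻¹ • v i) fun i => by
    have := hc i
    simp only [map_smul, smul_apply, smul_eq_mul]
    rw [← mul_assoc, ← sq, inv_pow, inv_mul_le_iff₀ (by positivity), mul_one]
    exact hv i
  have h3 : 0 < ∏ i, c i := Finset.prod_pos fun i _ => hc i
  rw [h1, smul_eq_mul, abs_mul, abs_of_pos h3, mul_comm]
  exact mul_le_mul_of_nonneg_right h2 h3.le

theorem exists_onb {B : Bil E} (hs : ∀ v w, B v w = B w v) (hp : ∀ v, v ≠ 0 → 0 < B v v) :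
    ∃ b : Module.Basis (Fin (Module.finrank ℝ E)) ℝ E,
      (∀ i, B (b i) (b i) = 1) ∧ ∀ i z, b.coord i z = B z (b i) := by
  obtain ⟨v, hv⟩ := LinearMap.BilinForm.exists_orthogonal_basis (B := B.toBilinForm)
    ⟨fun a b => hs a b⟩
  have p := fun i => Real.sqrt_pos.2 (hp _ (v.ne_zero i))
  let b := v.unitsSMul fun i => Units.mk0 (√(B (v i) (v i)))⁻¹ (inv_pos.2 (p i)).ne'
  have e : ∀ i, b i = (√(B (v i) (v i)))⁻¹ • v i := fun i => by
    simp [b, Module.Basis.unitsSMul_apply, Units.smul_def]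
  have h1 : ∀ i, B (b i) (b i) = 1 := fun i => by
    have := p i
    have := Real.mul_self_sqrt (hp _ (v.ne_zero i)).le
    simp only [e, map_smul, smul_apply, smul_eq_mul]
    field_simp
    linarith
  refine ⟨b, h1, fun i z => ?_⟩
  conv_rhs => rw [← b.sum_repr z, map_sum, sum_apply]
  rw [Finset.sum_eq_single i (fun j _ hj => ?_) (by simp)]
  · simp [h1]
  · have : B (v j) (v i) = 0 := hv hj
    simp [e, this]

theorem ric_le (m : IsMetricOn G V) (hy : y ∈ V) (h : RmB G 0 y C) (v : E) :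
    |ricG G y v v| ≤ Module.finrank ℝ E * C * G y v v := by
  rcases eq_or_ne v 0 with rfl | hv
  · simp
  obtain ⟨b, b1, b2⟩ := exists_onb (m.symm y hy) (m.pos y hy)
  have p := m.pos y hy v hv
  have e : ricG G y v v = ∑ i, rmG G 0 (y, ![b i, v, v, b i]) := by
    rw [ricG_apply, trL_apply, LinearMap.trace_eq_matrix_trace ℝ b]
    refine Finset.sum_congr rfl fun i _ => ?_
    rw [rmG_zero m hy, Matrix.diag_apply, LinearMap.toMatrix_apply]
    exact b2 i _
  rw [e]
  refine (Finset.abs_sum_le_sum_abs _ _).trans ((Finset.sum_le_card_nsmul _ _ (C * G y v v)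
    fun i _ => ?_).trans_eq (by simp [mul_assoc]))
  refine (rm_le m hy h _ (c := ![1, √(G y v v), √(G y v v), 1]) (fun j => ?_) fun j => ?_).trans_eq
    (by simp [Fin.prod_univ_four, Real.mul_self_sqrt p.le])
  · fin_cases j <;> simp [p]
  · fin_cases j <;> simp [b1, Real.sq_sqrt p.le]

theorem norm_le_of_quad {B : Bil E} (hs : ∀ v w, B v w = B w v) (hn : ∀ v, 0 ≤ B v v)
    (hC : 0 ≤ C) (h : ∀ v, B v v ≤ C * ‖v‖ ^ 2) : ‖B‖ ≤ C := by
  have k : ∀ v w, B v w ≤ C * ‖v‖ * ‖w‖ := fun v w => by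
    refine (cs_form B hs hn v w).trans ((mul_le_mul (Real.sqrt_le_sqrt (h v))
      (Real.sqrt_le_sqrt (h w)) (by positivity) (by positivity)).trans_eq ?_)
    rw [Real.sqrt_mul hC, Real.sqrt_mul hC, Real.sqrt_sq (norm_nonneg _),
      Real.sqrt_sq (norm_nonneg _), mul_mul_mul_comm, Real.mul_self_sqrt hC, mul_assoc]
  refine B.opNorm_le_bound₂ hC fun v w => abs_le.2 ⟨?_, k v w⟩
  have := k (-v) w
  simp only [map_neg, neg_apply, norm_neg] at this
  linarith

theorem quad_le (B : Bil E) (v : E) : B v v ≤ ‖B‖ * ‖v‖ ^ 2 :=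
  (le_abs_self _).trans ((B.le_opNorm₂ v v).trans_eq (by ring))

end point

section flow

variable {G : ℝ → E → Bil E} {I : Set ℝ} {V : Set E} {y : E} {C s t : ℝ}

theorem met_of (h : RF G I V) (ht : t ∈ I) : IsMetricOn (G t) V := met_model.1 (h.toFam.met ht)

theorem ric_model (G : E → Bil E) (y : E) : Ric G y = ricG G y := by
  simp only [Ric, co_model, pt_model]

theorem tf_of (h : RF G I V) : TF I V G fun t y => (-2 : ℝ) • ricG (G t) y :=
  ⟨h.isOpen, h.toFam.contDiffOn_model, fun t ht y hy => by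
    rw [← ric_model]
    exact (h.eqn t (interior_subset ht) y hy).hasDerivAt (mem_interior_iff_mem_nhds.1 ht)⟩

/-- the metrics at different times are comparable -/
theorem quad_time (h : RF G I V) (hI : I.OrdConnected) (hy : y ∈ V)
    (hC : ∀ t ∈ I, RmB (G t) 0 y C) (hs : s ∈ I) (ht : t ∈ I) (v : E) :
    G t y v v ≤ Real.exp (2 * (Module.finrank ℝ E * C) * |t - s|) * G s y v v := by
  set K := 2 * (Module.finrank ℝ E * C)
  have c : ContinuousOn (fun u => G u y v v) I :=
    ((cont_time h.toFam.contDiffOn_model hy).clm_apply continuousOn_const).clm_apply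
      continuousOn_const
  have d : ∀ u ∈ interior I, HasDerivAt (fun u => G u y v v) (-2 * ricG (G u) y v v) u ∧
      HasDerivAt (fun u => K * u) K u ∧ |-2 * ricG (G u) y v v| ≤ K * G u y v v := fun u hu => by
    refine ⟨?_, by simpa using (hasDerivAt_id u).const_mul K, ?_⟩
    · simpa using (((tf_of h).eqn u hu y hy).clm_apply (hasDerivAt_const u v)).clm_apply
        (hasDerivAt_const u v)
    · have := ric_le (met_of h (interior_subset hu)) hy (hC u (interior_subset hu)) v
      rw [abs_mul, abs_neg, abs_two]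
      simp only [K]
      linarith
  rcases le_total s t with hst | hst
  · have i := sub_int hI hs ht
    rw [uIcc_of_le hst, interior_Icc] at i
    rw [abs_of_nonneg (sub_nonneg.2 hst), mul_sub]
    exact P216BF.le_exp_mul (Λ := fun u => K * u) hst (c.mono (hI.out hs ht)) (by fun_prop)
      fun u hu => ⟨(d u (i hu)).1, (d u (i hu)).2.1, (le_abs_self _).trans (d u (i hu)).2.2⟩
  · have i := sub_int hI ht hs
    rw [uIcc_of_le hst, interior_Icc] at i
    rw [abs_sub_comm, abs_of_nonneg (sub_nonneg.2 hst), mul_sub]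
    exact P216BF.le_exp_mul' (Λ := fun u => K * u) hst (c.mono (hI.out ht hs)) (by fun_prop)
      fun u hu => ⟨(d u (i hu)).1, (d u (i hu)).2.1, (neg_le_abs _).trans (d u (i hu)).2.2⟩

theorem sm_inv (h : RF G I V) :
    ContDiffOn ℝ ∞ (fun p : ℝ × E => (G p.1 p.2).inverse) (I ×ˢ V) := fun p hp =>
  ContDiffAt.comp_contDiffWithinAt (g := ContinuousLinearMap.inverse) p
    ((met_of h hp.1).isInvertible hp.2).contDiffAt_map_inverse (h.toFam.contDiffOn_model p hp)

theorem sm_chris (h : RF G I V) :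
    ContDiffOn ℝ ∞ (fun p : ℝ × E => chrisB (G p.1) p.2) (I ×ˢ V) := fun p hp => by
  refine smw_of_apply fun a => smw_of_apply fun b => ?_
  have d := fun a b c : E => (((sm_fderiv h.isOpen h.toFam.contDiffOn_model p hp).clm_apply
    (contDiffWithinAt_const (c := a))).clm_apply (contDiffWithinAt_const (c := b))).clm_apply
      (contDiffWithinAt_const (c := c))
  simp only [chrisB_apply, chris]
  refine (sm_inv h p hp).clm_apply (smw_of_apply fun c => ?_)
  simpa using (((d a b c).add (d b a c)).sub (d c a b)).const_smul (1 / 2 : ℝ)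

/-- the time derivative of the Christoffel symbols -/
def dC (G : ℝ → E → Bil E) (t : ℝ) (y : E) : E →L[ℝ] E →L[ℝ] E :=
  deriv (fun s => chrisB (G s) y) t

theorem tf_chris (h : RF G I V) : TF I V (fun t => chrisB (G t)) (dC G) :=
  ⟨h.isOpen, sm_chris h, fun _ ht _ hy => (hasDeriv_slice
    ((sm_int h.isOpen (sm_chris h) ht hy).differentiableAt (by simp))).differentiableAt.hasDerivAt⟩

/-- the covariant derivative of the Ricci tensor -/
def nRic (G : E → Bil E) (y u v w : E) : ℝ :=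
  ∑ i, (Module.finBasis ℝ E).coord i (nR G y u (Module.finBasis ℝ E i) v w)

theorem ric_symm (h : RF G I V) (ht : t ∈ interior I) (hy : y ∈ V) (v w : E) :
    ricG (G t) y v w = ricG (G t) y w v := by
  have d := fun v w => (((tf_of h).eqn t ht y hy).clm_apply (hasDerivAt_const t v)).clm_apply
    (hasDerivAt_const t w)
  have := (d v w).unique ((d w v).congr_of_eventuallyEq (mem_of_superset
    (mem_interior_iff_mem_nhds.1 ht) fun s hs => h.symm s hs y hy v w))
  simpa using this

theorem dC_eq (h : RF G I V) (ht : t ∈ interior I) (hy : y ∈ V) (u v z : E) :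
    G t y (dC G t y u v) z = -(nRic (G t) y u v z + nRic (G t) y v u z - nRic (G t) y z u v) := by
  have m := met_of h (interior_subset ht)
  have d1 := (((tf_of h).eqn t ht y hy).clm_apply ((((tf_chris h).eqn t ht y hy).clm_apply
    (hasDerivAt_const t u)).clm_apply (hasDerivAt_const t v))).clm_apply (hasDerivAt_const t z)
  have d := fun a b c => ((((tf_of h).fderiv.eqn t ht y hy).clm_apply
    (hasDerivAt_const t a)).clm_apply (hasDerivAt_const t b)).clm_apply (hasDerivAt_const t c)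
  have d2 := (((d u v z).add (d v u z)).sub (d z u v)).div_const 2
  have e := d1.unique (d2.congr_of_eventuallyEq (mem_of_superset
    (mem_interior_iff_mem_nhds.1 ht) fun s hs => (met_of h hs).chris_spec hy u v z))
  rw [fderiv_fun_const_smul ((sm_ricG m hy).differentiableAt (by simp))] at e
  simp only [nRic, ← fderiv_ricG m hy]
  simp at e
  simp only [chrisB_apply] at e
  rw [m.chris_symm hy v u, m.chris_symm hy z u, m.chris_symm hy z v,
    ric_symm h ht hy (chris (G t) y u z) v]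
  linarith

end flow

variable {I : ι → Set ℝ} {V : ι → Set E} {x : ι → E} {s : ι → ℝ} {G : ι → ℝ → E → Bil E}

/-- Ricci flows along a filter -/
structure Fl (l : Filter ι) (G : ι → ℝ → E → Bil E) (I : ι → Set ℝ) (V : ι → Set E) (x : ι → E)
    (s : ι → ℝ) : Prop extends Dat l I V x s where
  rf : ∀ᶠ n in l, RF (G n) (I n) (V n)

/-- the `j`-th derivative of the curvature is bounded at the points, for all times -/
def RB (l : Filter ι) (G : ι → ℝ → E → Bil E) (I : ι → Set ℝ) (x : ι → E) (j : ℕ) : Prop :=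
  ∃ C, ∀ᶠ n in l, ∀ t ∈ I n, RmB (G n t) j (x n) C

theorem Fl.mt (h : Fl l G I V x s) : Mt (tf l I) (fun p => x p.1) fun p => G p.1 p.2 :=
  ev_tf.2 <| by
    filter_upwards [h.rf, h.mem] with n a b t ht using ⟨_, met_of a ht, b⟩

theorem Fl.mt0 (h : Fl l G I V x s) : Mt l x fun n => G n (s n) :=
  (tendsto_sel h.ini).eventually h.mt

theorem Fl.quad (h : Fl l G I V x s) (h0 : RB l G I x 0) : ∃ A > 0, ∀ᶠ n in l, ∀ t ∈ I n, ∀ v,
    G n t (x n) v v ≤ A * G n (s n) (x n) v v ∧ G n (s n) (x n) v v ≤ A * G n t (x n) v v := by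
  obtain ⟨C, hC⟩ := h0
  obtain ⟨T, hT⟩ := h.len
  refine ⟨Real.exp (2 * (Module.finrank ℝ E * C) * T), Real.exp_pos _, ?_⟩
  filter_upwards [hC, hT, h.rf, h.oc, h.mem, h.ini] with n a b c d e f t ht v
  have C0 := rmB_nonneg (a t ht)
  have := b t ht
  refine ⟨(quad_time c d e a f ht v).trans ?_, (quad_time c d e a ht f v).trans ?_⟩
  · gcongr
    exact (met_of c f).nonneg e v
  · rw [abs_sub_comm]
    gcongr
    exact (met_of c ht).nonneg e v

/-- uniform positivity persists -/
theorem Fl.upos (h : Fl l G I V x s) (h0 : RB l G I x 0) (p : UPos l fun n => G n (s n) (x n)) :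
    UPos (tf l I) fun p => G p.1 p.2 (x p.1) := by
  obtain ⟨A, A0, hA⟩ := h.quad h0
  obtain ⟨c, c0, hc⟩ := p
  refine ⟨c / A, div_pos c0 A0, ev_tf.2 ?_⟩
  filter_upwards [hA, hc] with n a b t ht v
  rw [div_mul_eq_mul_div, div_le_iff₀' A0]
  exact (b v).trans (a t ht v).2

theorem Fl.bj_zero (h : Fl l G I V x s) (h0 : RB l G I x 0) (b : Bd l fun n => G n (s n) (x n)) :
    BJ (tf l I) (fun p => x p.1) 0 fun p => G p.1 p.2 := by
  refine .zero_of (h.mt.at fun _ _ m hy => m.contDiffAt hy) ?_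
  obtain ⟨A, A0, hA⟩ := h.quad h0
  obtain ⟨C, C0, hC⟩ := b.nonneg
  refine ⟨A * C, ev_tf.2 ?_⟩
  filter_upwards [hA, hC, h.rf, h.mem] with n a b c d t ht
  refine norm_le_of_quad ((met_of c ht).symm _ d) ((met_of c ht).nonneg d) (by positivity)
    fun v => (a t ht v).1.trans ?_
  rw [mul_assoc]
  exact mul_le_mul_of_nonneg_left ((quad_le _ v).trans (by gcongr)) A0.le

theorem bj_rm_zero {G : ι → E → Bil E} (h : Mt l x G) (b : Bd l fun n => G n (x n)) {j : ℕ}
    (hj : ∃ C, ∀ᶠ n in l, RmB (G n) j (x n) C) (v : Fin (j + 4) → E) :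
    BJ l x 0 fun n y => rmG (G n) j (y, v) := by
  refine .zero_of (h.at fun _ _ m hy => (tn_rmG m j).sm_pt hy v) ?_
  obtain ⟨C, hC⟩ := hj
  obtain ⟨D, D0, hD⟩ := b.nonneg
  refine ⟨C * ∏ i, √(D * ‖v i‖ ^ 2 + 1), ?_⟩
  filter_upwards [h, hC, hD] with n ⟨V, m, hy⟩ a b
  refine rm_le m hy a v (fun i => by positivity) fun i => ?_
  rw [Real.sq_sqrt (by positivity)]
  exact (quad_le _ _).trans (le_add_of_le_of_nonneg (by gcongr) zero_le_one)

theorem Fl.dC (h : Fl l G I V x s) (hi : BJ (tf l I) (fun p => x p.1) k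
    fun p y => (G p.1 p.2 y).inverse) (h1 : ∀ v, BJ (tf l I) (fun p => x p.1) k
      fun p y => rmG (G p.1 p.2) 1 (y, v)) :
    BJ (tf l fun n => interior (I n)) (fun p => x p.1) k fun p => dC (G p.1) p.2 := by
  have i : Tendsto id (tf l fun n => interior (I n)) (tf l I) := tf_mono fun _ => interior_subset
  have r : ∀ u v w, BJ (tf l I) (fun p => x p.1) k fun p y => nRic (G p.1 p.2) y u v w :=
    fun u v w => BJ.sum Finset.univ fun i _ => (h.mt.lower hi fun d => (h1 _).congr
      (h.mt.ev fun _ _ _ m hy => (rmG_one m hy _ _ _ _ d).symm)).clm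
        ((Module.finBasis ℝ E).coord i).toContinuousLinearMap
  refine bj_of_apply fun u => bj_of_apply fun v => Mt.lower (i.eventually h.mt)
    (hi.comp_tendsto i) fun z => ?_
  refine (((((r u v z).add (r v u z)).sub (r z u v)).neg).comp_tendsto i).congr (ev_tf.2 ?_)
  filter_upwards [h.rf, h.mem] with n a b t ht
  exact mem_of_superset (a.isOpen.mem_nhds b) fun y hy => dC_eq a ht hy u v z

theorem Fl.aux (h : Fl l G I V x s) (p : UPos l fun n => G n (s n) (x n)) (k : ℕ)
    (hR : ∀ j ≤ k, RB l G I x j) (h0 : BJ l x k fun n => G n (s n)) :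
    BJ (tf l I) (fun p => x p.1) k (fun p => G p.1 p.2) ∧ ∀ j, (∀ i ≤ k, RB l G I x (j + i)) →
      ∀ v, BJ (tf l I) (fun p => x p.1) k fun p y => rmG (G p.1 p.2) j (y, v) := by
  induction k with
  | zero =>
    have b := h.bj_zero (hR 0 le_rfl) h0.val
    exact ⟨b, fun j hj => bj_rm_zero h.mt b.val ((hj 0 le_rfl).imp fun _ a => ev_tf.2 a)⟩
  | succ k ih =>
    obtain ⟨a, b⟩ := ih (fun j hj => hR j (by omega)) (h0.mono k.le_succ)
    have c := h.toDat.bj (h.rf.mono fun _ => tf_chris) (h.mt0.chris p h0)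
      (h.dC (bj_inv a (h.upos (hR 0 (by omega)) p)) (b 1 fun i hi => hR _ (by omega)))
    exact ⟨h.mt.of_chris a c, fun j hj => h.mt.rm_succ c (b j fun i hi => hj i (by omega))
      (b (j + 1) fun i hi => by rw [add_assoc, add_comm 1]; exact hj _ (by omega))⟩

/-- **propagation of jets** -/
theorem Fl.bj (h : Fl l G I V x s) (p : UPos l fun n => G n (s n) (x n))
    (hR : ∀ j ≤ k, RB l G I x j) (h0 : BJ l x k fun n => G n (s n)) :
    BJ (tf l I) (fun p => x p.1) k fun p => G p.1 p.2 := (h.aux p k hR h0).1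

theorem Mt.ric_of {G : ι → E → Bil E} (h : Mt l x G) (hi : BJ l x k fun n y => (G n y).inverse)
    (h0 : ∀ v, BJ l x k fun n y => rmG (G n) 0 (y, v)) : BJ l x k fun n => ricG (G n) :=
  bj_ric (bj_of_apply fun a => bj_of_apply fun b => bj_of_apply fun c => h.lower hi fun d =>
    (h0 ![a, b, c, d]).congr (h.ev fun _ _ _ m hy => (rmG_zero m hy ![a, b, c, d]).symm))

/-- the jets are Lipschitz in time -/
theorem Fl.lip (h : Fl l G I V x s) (p : UPos l fun n => G n (s n) (x n))
    (hR : ∀ j ≤ k, RB l G I x j) (h0 : BJ l x k fun n => G n (s n)) {j : ℕ} (hj : j ≤ k) :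
    ∃ C, 0 ≤ C ∧ ∀ᶠ n in l, ∀ t ∈ I n, ∀ t' ∈ I n,
      ‖iteratedFDeriv ℝ j (fun z => G n t z - G n t' z) (x n)‖ ≤ C * |t - t'| := by
  obtain ⟨a, b⟩ := h.aux p k hR h0
  have c := h.mt.ric_of (bj_inv a (h.upos (hR 0 k.zero_le) p)) (b 0 fun i hi => hR _ (by omega))
  exact h.toDat.bj_sub (h.rf.mono fun _ => tf_of) (((BJ.cst (-2 : ℝ)).smul c).comp_tendsto
    (φ := id) (tf_mono fun _ => interior_subset)) hj

/-- bounded jets give bounded curvature derivatives -/
theorem Mt.rmB {G : ι → E → Bil E} (h : Mt l x G) (p : UPos l fun n => G n (x n))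
    (hG : BJ l x (k + 2) G) : ∃ C, ∀ᶠ n in l, RmB (G n) k (x n) C := by
  obtain ⟨c, c0, hc⟩ := id p
  let b := Module.finBasis ℝ E
  choose C hC using fun r : Fin (k + 4) → Fin (Module.finrank ℝ E) =>
    (h.rm (k := 0) p k (by simpa using hG) fun i => b (r i)).val
  let L := fun i => ‖(b.coord i).toContinuousLinearMap‖ * √c⁻¹
  refine ⟨∑ r, (∏ i, L (r i)) * C r, ?_⟩
  filter_upwards [h, hc, eventually_all.2 hC] with n ⟨V, m, hy⟩ a d
  refine rmB_model.2 fun v hv => ?_
  have e := ((tn_rmG m k).ml hy).map_sum fun i j => b.repr (v i) j • b j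
  simp only [b.sum_repr, ContinuousMultilinearMap.map_smul_univ, Tn.ml_apply] at e
  rw [e]
  refine (Finset.abs_sum_le_sum_abs _ _).trans (Finset.sum_le_sum fun r _ => ?_)
  rw [smul_eq_mul, abs_mul, Finset.abs_prod]
  refine mul_le_mul (Finset.prod_le_prod (fun _ _ => abs_nonneg _) fun i _ => ?_) (d r)
    (abs_nonneg _) (Finset.prod_nonneg fun _ _ => by positivity)
  refine ((b.coord (r i)).toContinuousLinearMap.le_opNorm (v i)).trans
    (mul_le_mul_of_nonneg_left (Real.le_sqrt_of_sq_le ?_) (norm_nonneg _))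
  rw [← one_div, le_div_iff₀' c0]
  exact (a _).trans (hv i)

end Vale.Agent.P216J
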