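import Vale.Agent.P216J.Jet

/-!
# Space-time jets of Ricci flows
-/

open Set Filter Topology Function
open scoped ContDiff

set_option maxSynthPendingDepth 3
set_option linter.unusedSectionVars false

noncomputable section

namespace Vale.Agent.P216J

open P216R P219.RG P216G P216U

variable {ι E F H K : Type} [NormedAddCommGroup E] [NormedSpace ℝ E] [NormedAddCommGroup F]
  [NormedSpace ℝ F] [NormedAddCommGroup H] [NormedSpace ℝ H] [NormedAddCommGroup K]
  [NormedSpace ℝ K] {l : Filter ι} {k m : ℕ} {t : ι → ℝ} {x : ι → E}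

/-- all spatial jets are bounded -/
structure A0 (l : Filter ι) (t : ι → ℝ) (x : ι → E) (f : ι → ℝ × E → F) : Prop where
  sm : ∀ᶠ n in l, ContDiffAt ℝ ∞ (f n) (t n, x n)
  bj : ∀ k, BJ l x k fun n y => f n (t n, y)

/-- all spatial jets of the first `m` time derivatives are bounded -/
def AJ (l : Filter ι) (t : ι → ℝ) (x : ι → E) : ℕ → (ι → ℝ × E → F) → Prop
  | 0, f => A0 l t x f
  | m + 1, f => A0 l t x f ∧ AJ l t x m fun n p => fderiv ℝ (f n) p (1, 0)

variable {f f' : ι → ℝ × E → F} {g : ι → ℝ × E → H}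

theorem A0.diff (h : A0 l t x f) : ∀ᶠ n in l, ∀ᶠ p in 𝓝 (t n, x n), DifferentiableAt ℝ (f n) p :=
  h.sm.mono fun _ hn => ((hn.of_le (le_inf 1)).eventually (by simp)).mono
    fun _ hy => hy.differentiableAt (by simp)

theorem ev_slice {P : ι → ℝ × E → Prop} (e : ∀ᶠ n in l, ∀ᶠ p in 𝓝 (t n, x n), P n p) :
    ∀ᶠ n in l, ∀ᶠ y in 𝓝 (x n), P n (t n, y) :=
  e.mono fun n hn => (Continuous.prodMk_right (t n)).continuousAt.eventually hn

theorem A0.congr (h : A0 l t x f) (e : ∀ᶠ n in l, f' n =ᶠ[𝓝 (t n, x n)] f n) : A0 l t x f' :=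
  ⟨by filter_upwards [h.sm, e] with n a b using a.congr_of_eventuallyEq b,
    fun k => (h.bj k).congr (ev_slice e)⟩

theorem A0.dy (h : A0 l t x f) (v : E) : A0 l t x fun n p => fderiv ℝ (f n) p (0, v) :=
  ⟨h.sm.mono fun _ a => (a.fderiv_right (m := ∞) (by simp)).clm_apply contDiffAt_const,
    fun k => ((h.bj (k + 1)).fderiv.clm_apply (.cst v)).congr
      ((ev_slice h.diff).mono fun _ a => a.mono fun _ b => (fderiv_slice b v).symm)⟩

namespace AJ

theorem a0 (h : AJ l t x m f) : A0 l t x f := by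
  cases m
  exacts [h, h.1]

theorem mono (h : AJ l t x (m + 1) f) : AJ l t x m f := by
  induction m generalizing f with
  | zero => exact h.1
  | succ m ih => exact ⟨h.1, ih h.2⟩

theorem congr (h : AJ l t x m f) (e : ∀ᶠ n in l, f' n =ᶠ[𝓝 (t n, x n)] f n) : AJ l t x m f' := by
  induction m generalizing f f' with
  | zero => exact A0.congr h e
  | succ m ih =>
    exact ⟨h.1.congr e, ih h.2 (e.mono fun n hn => (hn.fderiv (𝕜 := ℝ)).mono fun p hp =>
      congrArg (fun L : ℝ × E →L[ℝ] F => L (1, 0)) hp)⟩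

theorem succ (h0 : A0 l t x f) (h : AJ l t x m f')
    (e : ∀ᶠ n in l, ∀ᶠ p in 𝓝 (t n, x n), fderiv ℝ (f n) p (1, 0) = f' n p) :
    AJ l t x (m + 1) f := ⟨h0, h.congr e⟩

theorem cst (c : F) : AJ l t x m fun _ _ => c := by
  have h0 : ∀ c : F, A0 l t x fun _ _ => c := fun c =>
    ⟨.of_forall fun _ => contDiffAt_const, fun _ => .cst c⟩
  induction m generalizing c with
  | zero => exact h0 c
  | succ m ih => exact succ (h0 c) (ih 0) (.of_forall fun _ => .of_forall fun _ => by simp)

theorem add (h : AJ l t x m f) (h' : AJ l t x m f') : AJ l t x m fun n p => f n p + f' n p := by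
  have h0 : ∀ {f f' : ι → ℝ × E → F}, A0 l t x f → A0 l t x f' →
      A0 l t x fun n p => f n p + f' n p := fun a b =>
    ⟨by filter_upwards [a.sm, b.sm] with n c d using c.add d, fun k => (a.bj k).add (b.bj k)⟩
  induction m generalizing f f' with
  | zero => exact h0 h h'
  | succ m ih =>
    refine succ (h0 h.1 h'.1) (ih h.2 h'.2) ?_
    filter_upwards [h.1.diff, h'.1.diff] with n a b
    filter_upwards [a, b] with p c d
    rw [fderiv_fun_add c d]; rfl

theorem bilin (B : F →L[ℝ] H →L[ℝ] K) (h : AJ l t x m f) (h' : AJ l t x m g) :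
    AJ l t x m fun n p => B (f n p) (g n p) := by
  have h0 : ∀ {f : ι → ℝ × E → F} {g : ι → ℝ × E → H}, A0 l t x f → A0 l t x g →
      A0 l t x fun n p => B (f n p) (g n p) := fun a b =>
    ⟨by filter_upwards [a.sm, b.sm] with n c d using
      (B.contDiff.contDiffAt.comp _ c).clm_apply d, fun k => .bilin B (a.bj k) (b.bj k)⟩
  induction m generalizing f g with
  | zero => exact h0 h h'
  | succ m ih =>
    refine succ (h0 h.1 h'.1) ((ih h.mono h'.2).add (ih h.2 h'.mono)) ?_
    filter_upwards [h.1.diff, h'.1.diff] with n a b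
    filter_upwards [a, b] with p c d
    rw [(B.hasFDerivAt_of_bilinear c.hasFDerivAt d.hasFDerivAt).fderiv]; rfl

theorem app {A : ι → ℝ × E → F →L[ℝ] H} (hA : AJ l t x m A) (h : AJ l t x m f) :
    AJ l t x m fun n p => A n p (f n p) := bilin (.id ℝ (F →L[ℝ] H)) hA h

theorem clm (L : F →L[ℝ] H) (h : AJ l t x m f) : AJ l t x m fun n p => L (f n p) := (cst L).app h

theorem smul (c : ℝ) (h : AJ l t x m f) : AJ l t x m fun n p => c • f n p :=
  h.clm (c • .id ℝ F)

theorem sub (h : AJ l t x m f) (h' : AJ l t x m f') : AJ l t x m fun n p => f n p - f' n p := by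
  simpa only [sub_eq_add_neg, neg_smul, one_smul] using h.add (h'.smul (-1))

theorem sum {α : Type} (s : Finset α) {f : α → ι → ℝ × E → F} (h : ∀ a, AJ l t x m (f a)) :
    AJ l t x m fun n p => ∑ a ∈ s, f a n p := by
  classical
  induction s using Finset.induction_on with
  | empty => simpa using cst (0 : F)
  | insert a s ha ih => simpa only [Finset.sum_insert ha] using (h a).add ih

theorem dy (h : AJ l t x m f) (v : E) : AJ l t x m fun n p => fderiv ℝ (f n) p (0, v) := by
  induction m generalizing f with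
  | zero => exact A0.dy h v
  | succ m ih =>
    refine succ (h.1.dy v) (ih h.2) (h.1.sm.mono fun n a => ?_)
    filter_upwards [(a.of_le (le_inf 2)).eventually (by simp)] with p b
    have d := ((b.fderiv_right (m := 1) (by norm_num)).differentiableAt (by simp)).hasFDerivAt
    rw [(d.clm_apply (hasFDerivAt_const _ p)).fderiv, (d.clm_apply (hasFDerivAt_const _ p)).fderiv]
    simpa using (b.isSymmSndFDerivAt (by simp)).eq (1, 0) (0, v)

theorem dys (h : AJ l t x m f) (v : E) :
    AJ l t x m fun n p => fderiv ℝ (fun z => f n (p.1, z)) p.2 v :=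
  (h.dy v).congr (h.a0.diff.mono fun _ a => a.mono fun _ b => fderiv_slice b v)

theorem of_apply [FiniteDimensional ℝ H] {A : ι → ℝ × E → H →L[ℝ] F}
    (h : ∀ v, AJ l t x m fun n p => A n p v) : AJ l t x m A := by
  let b := Module.finBasis ℝ H
  refine (sum Finset.univ fun i => (h (b i)).clm
    (ContinuousLinearMap.smulRightL ℝ H F (b.coord i).toContinuousLinearMap)).congr
    (.of_forall fun n => .of_forall fun y => ?_)
  ext v
  conv_lhs => rw [← b.sum_repr v, map_sum]
  simp

theorem inv [CompleteSpace F] {A : ι → ℝ × E → F →L[ℝ] H} (h : AJ l t x m A)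
    (h0 : A0 l t x fun n p => (A n p).inverse)
    (hi : ∀ᶠ n in l, ∀ᶠ p in 𝓝 (t n, x n), (A n p).IsInvertible) :
    AJ l t x m fun n p => (A n p).inverse := by
  induction m with
  | zero => exact h0
  | succ m ih =>
    have i := ih h.mono
    refine succ h0 ((bilin (.compL ℝ H H F) i (bilin (.compL ℝ H F H) h.2 i)).smul (-1)) ?_
    filter_upwards [h.1.diff, h0.diff, hi] with n a b c
    filter_upwards [a, b, c.eventually_nhds] with p a b c
    ext w
    have e := (a.hasFDerivAt.clm_apply (b.hasFDerivAt.clm_apply (hasFDerivAt_const w p))).unique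
      ((hasFDerivAt_const w p).congr_of_eventuallyEq (c.mono fun q hq => hq.self_apply_inverse w))
    have e1 := DFunLike.congr_fun e (1, 0)
    simp at e1
    simp [eq_neg_of_add_eq_zero_right e1, c.self_of_nhds]

/-- all mixed derivatives bounded gives bounded space-time jets -/
theorem st [FiniteDimensional ℝ E] (h : ∀ m, AJ l t x m f) : BJ l (fun n => (t n, x n)) k f := by
  induction k generalizing f with
  | zero => exact .zero_of (h 0).a0.sm ((h 0).a0.bj 0).val
  | succ k ih =>
    refine ((ih h).mono k.zero_le).succ (bj_of_apply fun w => ?_)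
    refine (((BJ.cst w.1).smul (ih fun m => (h (m + 1)).2)).add (ih fun m => (h m).dy w.2)).congr
      (.of_forall fun n => .of_forall fun p => ?_)
    simp only [← map_smul, ← map_add]
    congr 1
    ext <;> simp

end AJ

variable [FiniteDimensional ℝ E] {G : ι → ℝ → E → Bil E}

theorem AJ.ric (h : AJ l t x m fun n p => G n p.1 p.2)
    (h0 : A0 l t x fun n p => (G n p.1 p.2).inverse)
    (hm : ∀ᶠ n in l, ∀ᶠ p in 𝓝 (t n, x n), ∃ V, IsMetricOn (G n p.1) V ∧ p.2 ∈ V) :
    AJ l t x m fun n p => ricG (G n p.1) p.2 := by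
  have := FiniteDimensional.complete ℝ E
  have i := h.inv h0 (hm.mono fun n a => a.mono fun p ⟨V, b, c⟩ => b.isInvertible c)
  have d := fun a b c : E => ((h.dys a).app (.cst b)).app (.cst c)
  have c : AJ l t x m fun n p => chrisB (G n p.1) p.2 := by
    refine .of_apply fun a => .of_apply fun b => ?_
    simp only [chrisB_apply, chris]
    refine i.app (.of_apply fun c => ?_)
    simpa using (((d a b c).add (d b a c)).sub (d c a b)).smul (1 / 2 : ℝ)
  have e := fun a b w : E => ((c.dys a).app (.cst b)).app (.cst w)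
  have q := fun a b w : E => (c.app (.cst a)).app ((c.app (.cst b)).app (.cst w))
  refine .of_apply fun v => .of_apply fun w => ?_
  simp only [ricG_eq]
  refine .sum _ fun j => .clm ((Module.finBasis ℝ E).coord j).toContinuousLinearMap
    (((((e _ v w).sub (e v _ w)).add (q _ v w)).sub (q v _ w)).congr
      (hm.mono fun n a => a.mono fun p ⟨V, b, c⟩ => (curvB_apply b c _ v w).trans (b.curv_eq c _ v w)))

variable {I : ι → Set ℝ} {V : ι → Set E} {s : ι → ℝ}

/-- **space-time jets** at interior times -/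
theorem Fl.st (h : Fl l G I V x s) (p : UPos l fun n => G n (s n) (x n))
    (hR : ∀ j, RB l G I x j) (h0 : ∀ k, BJ l x k fun n => G n (s n)) (k : ℕ) :
    BJ (tf l fun n => interior (I n)) (fun q => (q.2, x q.1)) k fun q p => G q.1 p.1 p.2 := by
  have i : Tendsto id (tf l fun n => interior (I n)) (tf l I) := tf_mono fun _ => interior_subset
  have b := fun k => (h.bj p (fun j _ => hR j) (h0 k)).comp_tendsto i
  have ev : ∀ {P : ι → ℝ × E → Prop}, (∀ n, RF (G n) (I n) (V n) → ∀ t ∈ interior (I n),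
      ∀ y ∈ V n, P n (t, y)) → ∀ᶠ q in tf l fun n => interior (I n),
        ∀ᶠ p in 𝓝 (q.2, x q.1), P q.1 p := fun H => ev_tf.2 <| by
    filter_upwards [h.rf, h.mem] with n a b t ht
    exact mem_of_superset (prod_mem_nhds (isOpen_interior.mem_nhds ht) (a.isOpen.mem_nhds b))
      fun p hp => H n a _ hp.1 _ hp.2
  have a0 : A0 (tf l fun n => interior (I n)) Prod.snd (fun q => x q.1) fun q p => G q.1 p.1 p.2 :=
    ⟨(ev fun n a t ht y hy => sm_int a.isOpen a.toFam.contDiffOn_model ht hy).mono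
      fun _ a => a.self_of_nhds, b⟩
  have i0 : A0 (tf l fun n => interior (I n)) Prod.snd (fun q => x q.1)
      fun q p => (G q.1 p.1 p.2).inverse :=
    ⟨(ev fun n a t ht y hy => sm_int a.isOpen (sm_inv a) ht hy).mono fun _ a => a.self_of_nhds,
      fun k => bj_inv (b k) ((h.upos (hR 0) p).imp fun _ a => ⟨a.1, i.eventually a.2⟩)⟩
  refine AJ.st (t := Prod.snd) (x := fun q : ι × ℝ => x q.1) fun m => ?_
  induction m with
  | zero => exact a0
  | succ m ih =>
    refine .succ a0 ((AJ.ric (G := fun q : ι × ℝ => G q.1) ih i0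
      (ev (P := fun n p => ∃ V, IsMetricOn (G n p.1) V ∧ p.2 ∈ V) fun n a t ht y hy =>
        ⟨_, met_of a (interior_subset ht), hy⟩)).smul (-2))
      (ev (P := fun n p => fderiv ℝ (fun p : ℝ × E => G n p.1 p.2) p (1, 0) =
        (-2 : ℝ) • ricG (G n p.1) p.2) fun n a t ht y hy => ?_)
    exact (hasDeriv_slice ((sm_int a.isOpen a.toFam.contDiffOn_model ht hy).differentiableAt
      (by simp))).unique ((tf_of a).eqn t ht y hy)

/-- bounds at interior times give bounds up to the boundary -/
theorem iter_le_of_int {f : ℝ × E → F} {I : Set ℝ} {V : Set E} (hI : I.OrdConnected)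
    (hne : (interior I).Nonempty) (hV : IsOpen V) (hf : ContDiffOn ℝ ∞ f (I ×ˢ V)) {y : E}
    (hy : y ∈ V) {C : ℝ} (h : ∀ t ∈ interior I, ‖iteratedFDeriv ℝ k f (t, y)‖ ≤ C) {t : ℝ}
    (ht : t ∈ I) : ‖iteratedFDerivWithin ℝ k f (I ×ˢ V) (t, y)‖ ≤ C := by
  have u : UniqueDiffOn ℝ (I ×ˢ V) := (uniqueDiffOn_convex hI.convex hne).prod hV.uniqueDiffOn
  have c : ContinuousOn (fun t => ‖iteratedFDerivWithin ℝ k f (I ×ˢ V) (t, y)‖) I :=
    ((hf.continuousOn_iteratedFDerivWithin (le_inf k) u).comp (f := fun t => (t, y)) (by fun_prop)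
      fun _ ht => mk_mem_prod ht hy).norm
  have m : t ∈ closure (interior I) := by
    rw [(hI.convex (𝕜 := ℝ)).closure_interior_eq_closure_of_nonempty_interior hne]
    exact subset_closure ht
  refine ContinuousWithinAt.closure_le m ((c t ht).mono interior_subset) continuousWithinAt_const
    fun u hu => ?_
  rw [iteratedFDerivWithin_eq_iteratedFDeriv ‹_› ((sm_int hV hf hu hy).of_le (le_inf k))
    (mk_mem_prod (interior_subset hu) hy)]
  exact h u hu

/-- **space-time jets**, all times -/
theorem Fl.stw (h : Fl l G I V x s) (hne : ∀ᶠ n in l, (interior (I n)).Nonempty)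
    (p : UPos l fun n => G n (s n) (x n)) (hR : ∀ j, RB l G I x j)
    (h0 : ∀ k, BJ l x k fun n => G n (s n)) (k : ℕ) : ∃ C, ∀ᶠ n in l, ∀ t ∈ I n,
      JB (I n ×ˢ V n) k (fun p => G n p.1 p.2) (t, x n) C := by
  choose C hC using fun j : Fin (k + 1) => (h.st p hR h0 k).bd j (Nat.lt_succ_iff.1 j.2)
  obtain ⟨D, hD⟩ := (finite_range C).bddAbove
  refine ⟨D, ?_⟩
  filter_upwards [h.rf, h.oc, h.mem, hne, eventually_all.2 fun j => ev_tf.1 (hC j)]
    with n a b c d e t ht
  exact ⟨(a.toFam.contDiffOn_model _ (mk_mem_prod ht c)).of_le (le_inf k), fun j hj =>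
    (iter_le_of_int b d a.isOpen a.toFam.contDiffOn_model c (e ⟨j, by omega⟩) ht).trans
      (hD ⟨_, rfl⟩)⟩

end Vale.Agent.P216J
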