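import Vale.Agent.P216R.Basic
import Vale.Agent.P216U.Iso

/-!
# Smooth tensor fields in a chart; the derivative of the Ricci tensor
-/

open Set Filter Topology Function
open scoped ContDiff

set_option maxSynthPendingDepth 3
set_option linter.unusedSectionVars false

noncomputable section

namespace Vale.Agent.P216J

open P216R P219.RG

variable {E : Type} [NormedAddCommGroup E] [NormedSpace ℝ E] {k : ℕ} {U : Set E}
  {T : E × (Fin k → E) → ℝ} {G : E → Bil E} {y : E}

/-- a smooth covariant tensor field on `U` -/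
structure Tn (U : Set E) (T : E × (Fin k → E) → ℝ) : Prop where
  sm : ∀ y ∈ U, ∀ v, ContDiffAt ℝ ∞ T (y, v)
  lin : ∀ y ∈ U, ∀ v b, IsLinearMap ℝ fun z => T (y, update v b z)

/-- the value as a multilinear map -/
def Tn.ml (h : Tn U T) (hy : y ∈ U) : ContinuousMultilinearMap ℝ (fun _ : Fin k => E) ℝ where
  toFun v := T (y, v)
  map_update_add' {i} v b x z := by
    rw [Subsingleton.elim i (instDecidableEqFin k)]
    exact (h.lin y hy v b).map_add x z
  map_update_smul' {i} v b c x := by
    rw [Subsingleton.elim i (instDecidableEqFin k)]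
    exact (h.lin y hy v b).map_smul c x
  cont := continuous_iff_continuousAt.2 fun v =>
    (h.sm y hy v).continuousAt.comp (f := fun v => (y, v)) (by fun_prop)

theorem Tn.ml_apply (h : Tn U T) (hy : y ∈ U) (v : Fin k → E) : h.ml hy v = T (y, v) := rfl

theorem Tn.diff (h : Tn U T) (hy : y ∈ U) (v : Fin k → E) : DifferentiableAt ℝ T (y, v) :=
  (h.sm y hy v).differentiableAt (by simp)

theorem Tn.sm_pt (h : Tn U T) (hy : y ∈ U) (v : Fin k → E) :
    ContDiffAt ℝ ∞ (fun z => T (z, v)) y :=
  (h.sm y hy v).comp y (f := fun z => (z, v)) (by fun_prop)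

theorem Tn.fderiv_eq (h : Tn U T) (hy : y ∈ U) (v w : Fin k → E) (u : E) :
    fderiv ℝ T (y, v) (u, w) =
      fderiv ℝ (fun z => T (z, v)) y u + ∑ c, T (y, update v c (w c)) := by
  have h1 := ((h.diff hy v).hasFDerivAt.comp y (f := fun z => (z, v))
    (hasFDerivAt_prodMk_left y v)).fderiv
  have h2 := ((h.diff hy v).hasFDerivAt.comp v (f := fun z => (y, z))
    (hasFDerivAt_prodMk_right y v)).unique ((h.ml hy).hasFDerivAt v)
  have h3 := DFunLike.congr_fun h2 w
  rw [ContinuousMultilinearMap.linearDeriv_apply] at h3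
  rw [show (fun z => T (z, v)) = T ∘ fun z => (z, v) from rfl, h1,
    show (u, w) = (u, 0) + (0, w) by simp, map_add]
  exact congrArg₂ _ rfl h3

theorem Tn.nab_eq (h : Tn U T) (hy : y ∈ U) (G : E → Bil E) (v : Fin (k + 1) → E) :
    nab G T (y, v) = fderiv ℝ (fun z => T (z, Fin.tail v)) y (v 0) -
      ∑ c, T (y, update (Fin.tail v) c (chris G y (v 0) (v c.succ))) := by
  rw [nab, h.fderiv_eq hy, sub_eq_add_neg, ← Finset.sum_neg_distrib]
  exact congrArg₂ _ rfl (Finset.sum_congr rfl fun c _ => (h.lin y hy _ c).map_neg _)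

variable [FiniteDimensional ℝ E]

theorem Tn.nab (h : Tn U T) (hG : IsMetricOn G U) : Tn U (nab G T) := by
  refine ⟨fun y hy v => ?_, fun y hy v b => ?_⟩
  · have h1 : ContDiffAt ℝ ∞ (fun p : E × (Fin (k + 1) → E) => (p.1, Fin.tail p.2)) (y, v) := by
      unfold Fin.tail; fun_prop
    refine (((h.sm y hy _).fderiv_right (m := ∞) (by simp)).comp (y, v) h1).clm_apply
      (ContDiffAt.prodMk (by fun_prop) (contDiffAt_pi.2 fun b => ?_))
    simp only [← chrisB_apply]
    have a : ∀ i, ContDiffAt ℝ ∞ (fun p : E × (Fin (k + 1) → E) => p.2 i) (y, v) := fun i => by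
      fun_prop
    exact ((((hG.contDiffAt_chrisB hy).comp (y, v) contDiffAt_fst).clm_apply
      (a 0)).clm_apply (a _)).neg
  · simp only [h.nab_eq hy, ← chrisB_apply]
    refine Fin.cases ?_ (fun b => ?_) b
    · simp only [Fin.tail_update_zero, update_self, update_of_ne (Fin.succ_ne_zero _)]
      refine ⟨fun a b => ?_, fun c a => ?_⟩
      · simp only [map_add, add_apply, (h.lin y hy _ _).map_add,
          Finset.sum_add_distrib]
        ring
      · simp only [map_smul, smul_apply, (h.lin y hy _ _).map_smul,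
          smul_sub, Finset.smul_sum]
    · simp only [Fin.tail_update_succ, update_of_ne (Fin.succ_ne_zero b).symm]
      have key : ∀ c, IsLinearMap ℝ fun z => T (y, update (update (Fin.tail v) b z) c
          (chrisB G y (v 0) (update v b.succ z c.succ))) := fun c => by
        by_cases e : c = b
        · subst e
          simp only [update_idem, update_self]
          exact ⟨fun a b => by rw [map_add, (h.lin y hy _ _).map_add],
            fun a b => by rw [map_smul, (h.lin y hy _ _).map_smul]⟩
        · simp only [update_comm (Ne.symm e), update_of_ne ((Fin.succ_injective _).ne e)]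
          exact h.lin y hy _ _
      have ev := hG.isOpen.mem_nhds hy
      have d := fun z => (h.sm_pt hy (update (Fin.tail v) b z)).differentiableAt (by simp)
      refine ⟨fun a c => ?_, fun c a => ?_⟩
      · simp only [(key _).map_add, Finset.sum_add_distrib]
        rw [EventuallyEq.fderiv_eq (f := fun z => T (z, update (Fin.tail v) b a) +
          T (z, update (Fin.tail v) b c)) (mem_of_superset ev fun z hz =>
            (h.lin z hz _ _).map_add _ _), fderiv_fun_add (d a) (d c)]
        simp only [add_apply]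
        ring
      · simp only [(key _).map_smul, smul_sub, Finset.smul_sum]
        rw [EventuallyEq.fderiv_eq (f := fun z => c • T (z, update (Fin.tail v) b a))
          (mem_of_superset ev fun z hz => (h.lin z hz _ _).map_smul _ _),
          fderiv_fun_const_smul (d a)]
        rfl

theorem smw_of_apply {H F : Type} [NormedAddCommGroup H] [NormedSpace ℝ H] [NormedAddCommGroup F]
    [NormedSpace ℝ F] {A : H → E →L[ℝ] F} {x : H} {S : Set H}
    (h : ∀ v, ContDiffWithinAt ℝ ∞ (fun z => A z v) S x) : ContDiffWithinAt ℝ ∞ A S x := by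
  let b := Module.finBasis ℝ E
  have e : ∀ z, A z = ∑ i, ContinuousLinearMap.smulRightL ℝ E F
      (b.coord i).toContinuousLinearMap (A z (b i)) := fun z => by
    ext v
    conv_lhs => rw [← b.sum_repr v, map_sum]
    simp
  exact (ContDiffWithinAt.sum fun i _ => (ContinuousLinearMap.contDiff _).comp_contDiffWithinAt
    (h (b i))).congr (fun z _ => e z) (e x)

theorem sm_of_apply {H F : Type} [NormedAddCommGroup H] [NormedSpace ℝ H] [NormedAddCommGroup F]
    [NormedSpace ℝ F] {A : H → E →L[ℝ] F} {x : H} (h : ∀ v, ContDiffAt ℝ ∞ (fun z => A z v) x) :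
    ContDiffAt ℝ ∞ A x :=
  contDiffWithinAt_univ.1 (smw_of_apply fun v => (h v).contDiffWithinAt)

theorem sm_curvB (hG : IsMetricOn G U) (hy : y ∈ U) : ContDiffAt ℝ ∞ (curvB G) y := by
  have h1 := hG.contDiffAt_chrisB hy
  have h2 := h1.fderiv_right (m := ∞) (by simp)
  refine sm_of_apply fun a => sm_of_apply fun b => sm_of_apply fun c => ?_
  have ap := fun a b c : E =>
    ((h2.clm_apply (contDiffAt_const (c := a))).clm_apply (contDiffAt_const (c := b))).clm_apply
      (contDiffAt_const (c := c))
  have aq := fun a b c : E => (h1.clm_apply (contDiffAt_const (c := a))).clm_apply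
    ((h1.clm_apply (contDiffAt_const (c := b))).clm_apply (contDiffAt_const (c := c)))
  refine ((((ap a b c).sub (ap b a c)).add (aq a b c)).sub (aq b a c)).congr_of_eventuallyEq ?_
  filter_upwards [hG.isOpen.mem_nhds hy] with z hz
  rw [curvB_apply hG hz, hG.curv_eq hz]

theorem rmG_zero (hG : IsMetricOn G U) (hy : y ∈ U) (v : Fin 4 → E) :
    rmG G 0 (y, v) = G y (curvB G y (v 0) (v 1) (v 2)) (v 3) := by
  rw [curvB_apply hG hy]; rfl

theorem tn_rmG (hG : IsMetricOn G U) (k : ℕ) : Tn U (rmG G k) := by
  induction k with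
  | succ k ih => exact ih.nab hG
  | zero =>
    refine ⟨fun y hy v => ?_, fun y hy v b => ?_⟩
    · have h1 := (sm_curvB hG hy).comp (y, v) (contDiffAt_fst (E := E) (F := Fin 4 → E))
      have h2 := (hG.contDiffAt hy).comp (y, v) (contDiffAt_fst (E := E) (F := Fin 4 → E))
      have a : ∀ i, ContDiffAt ℝ ∞ (fun p : E × (Fin 4 → E) => p.2 i) (y, v) := fun i => by
        fun_prop
      refine ((h2.clm_apply (((h1.clm_apply (a 0)).clm_apply (a 1)).clm_apply (a 2))).clm_apply
        (a 3)).congr_of_eventuallyEq ?_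
      filter_upwards [continuous_fst.continuousAt.eventually (hG.isOpen.mem_nhds hy)] with p hp
      exact rmG_zero hG hp p.2
    · simp only [rmG_zero hG hy]
      fin_cases b <;> exact ⟨fun a c => by simp, fun a c => by simp⟩

/-- the covariant derivative of the curvature, vector valued -/
def nR (G : E → Bil E) (y u a b c : E) : E :=
  fderiv ℝ (curvB G) y u a b c + chrisB G y u (curvB G y a b c) - curvB G y (chrisB G y u a) b c -
    curvB G y a (chrisB G y u b) c - curvB G y a b (chrisB G y u c)

theorem fderiv_app3 {F : Type} [NormedAddCommGroup F] [NormedSpace ℝ F]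
    {A : E → E →L[ℝ] E →L[ℝ] E →L[ℝ] F} (h : DifferentiableAt ℝ A y) (a b c : E) :
    HasFDerivAt (fun z => A z a b c) ((((fderiv ℝ A y).flip a).flip b).flip c) y := by
  refine (((h.hasFDerivAt.clm_apply (hasFDerivAt_const a y)).clm_apply
    (hasFDerivAt_const b y)).clm_apply (hasFDerivAt_const c y)).congr_fderiv ?_
  ext u; simp

theorem rmG_one (hG : IsMetricOn G U) (hy : y ∈ U) (u a b c d : E) :
    rmG G 1 (y, ![u, a, b, c, d]) = G y (nR G y u a b c) d := by
  have h1 := (((hG.differentiableAt hy).hasFDerivAt.clm_apply (fderiv_app3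
    ((sm_curvB hG hy).differentiableAt (by simp)) a b c)).clm_apply (hasFDerivAt_const d y))
  have h2 : (fun z => rmG G 0 (z, ![a, b, c, d])) =ᶠ[𝓝 y] fun z => G z (curvB G z a b c) d :=
    mem_of_superset (hG.isOpen.mem_nhds hy) fun z hz => rmG_zero hG hz _
  refine ((tn_rmG hG 0).nab_eq hy G _).trans ?_
  rw [show Fin.tail ![u, a, b, c, d] = ![a, b, c, d] from rfl, h2.fderiv_eq, h1.fderiv,
    Fin.sum_univ_four]
  simp [rmG_zero hG hy, nR, hG.chris_compat hy, chrisB_apply]
  ring

theorem sm_ricG (hG : IsMetricOn G U) (hy : y ∈ U) : ContDiffAt ℝ ∞ (ricG G) y :=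
  contDiffAt_const.clm_comp (contDiffAt_const.clm_comp
    ((ContinuousLinearMap.flipₗᵢ ℝ E E (E →L[ℝ] E)).toContinuousLinearEquiv.contDiff.contDiffAt.comp
      y (sm_curvB hG hy)))

theorem trL_eq (A : E →L[ℝ] E) :
    trL E A = ∑ i, (Module.finBasis ℝ E).coord i (A (Module.finBasis ℝ E i)) := by
  rw [trL_apply, LinearMap.trace_eq_matrix_trace ℝ (Module.finBasis ℝ E)]
  simp [Matrix.trace, LinearMap.toMatrix_apply]

theorem ricG_eq (G : E → Bil E) (y v w : E) : ricG G y v w =
    ∑ i, (Module.finBasis ℝ E).coord i (curvB G y (Module.finBasis ℝ E i) v w) := by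
  rw [ricG_apply, trL_eq]; rfl

/-- the covariant derivative of the Ricci tensor is a trace -/
theorem fderiv_ricG (hG : IsMetricOn G U) (hy : y ∈ U) (u v w : E) :
    fderiv ℝ (ricG G) y u v w - ricG G y (chris G y u v) w - ricG G y v (chris G y u w) =
      ∑ i, (Module.finBasis ℝ E).coord i (nR G y u (Module.finBasis ℝ E i) v w) := by
  have d := (sm_curvB hG hy).differentiableAt (by simp)
  have h1 := ((((sm_ricG hG hy).differentiableAt (by simp)).hasFDerivAt.clm_apply
    (hasFDerivAt_const v y)).clm_apply (hasFDerivAt_const w y))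
  have h2 := HasFDerivAt.fun_sum (u := Finset.univ) fun i _ =>
    ((Module.finBasis ℝ E).coord i).toContinuousLinearMap.hasFDerivAt.comp y
      (fderiv_app3 d (Module.finBasis ℝ E i) v w)
  have h3 := DFunLike.congr_fun (h1.unique (h2.congr_of_eventuallyEq
    (.of_forall fun z => ricG_eq G z v w))) u
  have h4 := LinearMap.trace_mul_comm ℝ (chrisB G y u : E →ₗ[ℝ] E)
    ((((curvB G y).flip v).flip w : E →L[ℝ] E) : E →ₗ[ℝ] E)
  rw [← ContinuousLinearMap.toLinearMap_mul, ← ContinuousLinearMap.toLinearMap_mul, ← trL_apply, ← trL_apply,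
    trL_eq, trL_eq] at h4
  simp at h3 h4
  simp [nR, h3, ricG_eq, Finset.sum_add_distrib, h4, ← chrisB_apply]

end Vale.Agent.P216J
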