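import Vale.Agent.P216J.Ten
import Vale.Agent.P216R.Met
import Vale.Agent.P216BF.Real
import Mathlib.Analysis.Normed.Module.HahnBanach

/-!
# Time derivatives of spatial jets; static bounds along filters
-/

open Set Filter Topology Function
open scoped ContDiff

set_option maxSynthPendingDepth 3
set_option linter.unusedSectionVars false

noncomputable section

namespace Vale.Agent.P216J

open P216R P219.RG P216G P216U

variable {ι E F : Type} [NormedAddCommGroup E] [NormedSpace ℝ E] [NormedAddCommGroup F]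
  [NormedSpace ℝ F] {l : Filter ι} {k : ℕ}

/-- pairs of an index along `l` and an arbitrary time in `I n` -/
def tf (l : Filter ι) (I : ι → Set ℝ) : Filter (ι × ℝ) :=
  l.comap Prod.fst ⊓ 𝓟 {p | p.2 ∈ I p.1}

theorem ev_tf {I : ι → Set ℝ} {P : ι × ℝ → Prop} :
    (∀ᶠ p in tf l I, P p) ↔ ∀ᶠ n in l, ∀ t ∈ I n, P (n, t) := by
  rw [tf, eventually_inf_principal, eventually_comap]
  exact eventually_congr (.of_forall fun n =>
    ⟨fun h t ht => h (n, t) rfl ht, fun h p e hp => by subst e; exact h _ hp⟩)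

theorem tendsto_tf {I : ι → Set ℝ} : Tendsto Prod.fst (tf l I) l :=
  tendsto_inf_left tendsto_comap

theorem tf_mono {I J : ι → Set ℝ} (h : ∀ n, J n ⊆ I n) : tf l J ≤ tf l I :=
  inf_le_inf_left _ (principal_mono.2 fun _ hp => h _ hp)

theorem tendsto_sel {I : ι → Set ℝ} {t : ι → ℝ} (h : ∀ᶠ n in l, t n ∈ I n) :
    Tendsto (fun n => (n, t n)) l (tf l I) := fun _ hs => mem_map.2 <| by
  filter_upwards [ev_tf.1 hs, h] with n h1 h2 using h1 _ h2

section tfam

variable {I : Set ℝ} {V : Set E} {f f' : ℝ → E → F} {s t : ℝ} {y : E}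

theorem sm_fderiv (hV : IsOpen V) (h : ContDiffOn ℝ ∞ (fun p : ℝ × E => f p.1 p.2) (I ×ˢ V)) :
    ContDiffOn ℝ ∞ (fun p : ℝ × E => fderiv ℝ (f p.1) p.2) (I ×ˢ V) := fun p hp => by
  have h1 : ContDiffWithinAt ℝ ∞ (uncurry fun (q : ℝ × E) y => f q.1 y) ((I ×ˢ V) ×ˢ V) (p, p.2) :=
    ContDiffWithinAt.comp (p, p.2) (g := fun p : ℝ × E => f p.1 p.2)
      (f := fun q : (ℝ × E) × E => (q.1.1, q.2)) (h p hp) (by fun_prop) fun q hq => ⟨hq.1.1, hq.2⟩
  exact (h1.fderivWithin (m := ∞) contDiffWithinAt_snd hV.uniqueDiffOn (by simp) hp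
    fun q hq => hq.2).congr (fun q hq => (fderivWithin_of_isOpen hV hq.2).symm)
      (fderivWithin_of_isOpen hV hp.2).symm

theorem sm_slice (hV : IsOpen V) (h : ContDiffOn ℝ ∞ (fun p : ℝ × E => f p.1 p.2) (I ×ˢ V))
    (ht : t ∈ I) (hy : y ∈ V) : ContDiffAt ℝ ∞ (f t) y :=
  (h.comp (f := fun u => (t, u)) (contDiffOn_const.prodMk contDiffOn_id)
    fun _ hu => mk_mem_prod ht hu).contDiffAt (hV.mem_nhds hy)

theorem sm_int (hV : IsOpen V) {f : ℝ × E → F} (h : ContDiffOn ℝ ∞ f (I ×ˢ V))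
    (ht : t ∈ interior I) (hy : y ∈ V) : ContDiffAt ℝ ∞ f (t, y) :=
  h.contDiffAt (prod_mem_nhds (mem_interior_iff_mem_nhds.1 ht) (hV.mem_nhds hy))

theorem cont_time (h : ContDiffOn ℝ ∞ (fun p : ℝ × E => f p.1 p.2) (I ×ˢ V)) (hy : y ∈ V) :
    ContinuousOn (fun t => f t y) I :=
  h.continuousOn.comp (f := fun t => (t, y)) (by fun_prop) fun _ ht => mk_mem_prod ht hy

theorem fderiv_slice {f : ℝ × E → F} (h : DifferentiableAt ℝ f (t, y)) (v : E) :
    fderiv ℝ (fun z => f (t, z)) y v = fderiv ℝ f (t, y) (0, v) := by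
  rw [show (fun z => f (t, z)) = f ∘ fun z => (t, z) from rfl,
    (h.hasFDerivAt.comp y (hasFDerivAt_prodMk_right t y)).fderiv]
  rfl

theorem hasDeriv_slice {f : ℝ × E → F} (h : DifferentiableAt ℝ f (t, y)) :
    HasDerivAt (fun s => f (s, y)) (fderiv ℝ f (t, y) (1, 0)) t :=
  h.hasFDerivAt.comp_hasDerivAt t ((hasDerivAt_id t).prodMk (hasDerivAt_const t y))

theorem fderiv_comm {X : Type} [NormedAddCommGroup X] [NormedSpace ℝ X] {f : X → F} {p : X}
    (h : ContDiffAt ℝ ∞ f p) (a b : X) :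
    fderiv ℝ (fun q => fderiv ℝ f q a) p b = fderiv ℝ (fun q => fderiv ℝ f q b) p a := by
  have d := ((h.fderiv_right (m := ∞) (by simp)).differentiableAt (by simp)).hasFDerivAt
  rw [(d.clm_apply (hasFDerivAt_const a p)).fderiv, (d.clm_apply (hasFDerivAt_const b p)).fderiv]
  simpa using ((h.of_le (le_inf 2)).isSymmSndFDerivAt (by simp)).eq b a

/-- a smooth family with its time derivative -/
structure TF (I : Set ℝ) (V : Set E) (f f' : ℝ → E → F) : Prop where
  op : IsOpen V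
  sm : ContDiffOn ℝ ∞ (fun p : ℝ × E => f p.1 p.2) (I ×ˢ V)
  eqn : ∀ t ∈ interior I, ∀ y ∈ V, HasDerivAt (fun s => f s y) (f' t y) t

theorem TF.fderiv (h : TF I V f f') :
    TF I V (fun t => fderiv ℝ (f t)) fun t => fderiv ℝ (f' t) := by
  refine ⟨h.op, sm_fderiv h.op h.sm, fun t ht y hy => ?_⟩
  have h0 := sm_int h.op h.sm ht hy
  have d := fun t ht y hy => (sm_int (t := t) (y := y) h.op h.sm ht hy).differentiableAt (by simp)
  have h1 := hasDeriv_slice ((sm_int h.op (sm_fderiv h.op h.sm) ht hy).differentiableAt (by simp))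
  convert h1 using 1
  ext v
  have h2 := (h1.clm_apply (hasDerivAt_const t v)).congr_of_eventuallyEq
    (f₁ := fun s => _root_.fderiv ℝ (fun p : ℝ × E => f p.1 p.2) (s, y) (0, v))
    (mem_of_superset (isOpen_interior.mem_nhds ht) fun s hs => (fderiv_slice (d s hs y hy) v).symm)
  have d2 := fun w => ((h0.fderiv_right (m := ∞) (by simp)).clm_apply
    (contDiffAt_const (c := w))).differentiableAt (by simp)
  have h3 := h2.unique (hasDeriv_slice (d2 (0, v)))
  have h4 : f' t =ᶠ[𝓝 y] fun z => _root_.fderiv ℝ (fun p : ℝ × E => f p.1 p.2) (t, z) (1, 0) :=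
    mem_of_superset (h.op.mem_nhds hy) fun z hz =>
      (h.eqn t ht z hz).unique (hasDeriv_slice (d t ht z hz))
  rw [h4.fderiv_eq, fderiv_slice (d2 (1, 0)), fderiv_comm h0, ← h3]
  simp

theorem sub_int (hI : I.OrdConnected) (hs : s ∈ I) (ht : t ∈ I) :
    interior (uIcc s t) ⊆ interior I := interior_mono (hI.uIcc_subset hs ht)

theorem norm_sub_le_int {φ φ' : ℝ → F} {C : ℝ} (hI : I.OrdConnected) (hc : ContinuousOn φ I)
    (h : ∀ t ∈ interior I, HasDerivAt φ (φ' t) t ∧ ‖φ' t‖ ≤ C) (hs : s ∈ I) (ht : t ∈ I) :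
    ‖φ t - φ s‖ ≤ C * |t - s| := by
  wlog hst : s ≤ t generalizing s t
  · rw [norm_sub_rev, abs_sub_comm]; exact this ht hs (le_of_not_ge hst)
  obtain ⟨g, g1, g2⟩ := exists_dual_vector'' ℝ (φ t - φ s)
  have hi : ∀ u ∈ interior I, HasDerivAt (fun u => g (φ u)) (g (φ' u)) u := fun u hu =>
    g.hasFDerivAt.comp_hasDerivAt u (h u hu).1
  have := hI.convex.image_sub_le_mul_sub_of_deriv_le (f := fun u => g (φ u)) (C := C)
    (g.continuous.comp_continuousOn hc)
    (fun u hu => (hi u hu).differentiableAt.differentiableWithinAt)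
    (fun u hu => by
      rw [(hi u hu).deriv]
      exact (le_abs_self _).trans ((g.le_opNorm _).trans
        ((mul_le_of_le_one_left (norm_nonneg _) g1).trans (h u hu).2))) s hs t ht hst
  rw [← map_sub, g2] at this
  rwa [abs_of_nonneg (sub_nonneg.2 hst)]

/-- the spatial jets are Lipschitz in time -/
theorem TF.iter_le (hI : I.OrdConnected) (hs : s ∈ I) (ht : t ∈ I) (hy : y ∈ V) {C : ℝ} (j : ℕ) :
    ∀ {F : Type} [NormedAddCommGroup F] [NormedSpace ℝ F] {f f' : ℝ → E → F}, TF I V f f' →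
      (∀ t ∈ interior I, ‖iteratedFDeriv ℝ j (f' t) y‖ ≤ C) →
      ‖iteratedFDeriv ℝ j (fun z => f t z - f s z) y‖ ≤ C * |t - s| := by
  induction j with
  | zero =>
    intro F _ _ f f' h hC
    rw [norm_iteratedFDeriv_zero]
    exact norm_sub_le_int hI (cont_time h.sm hy)
      (fun u hu => ⟨h.eqn u hu y hy, by simpa using hC u hu⟩) hs ht
  | succ j ih =>
    intro F _ _ f f' h hC
    have e : _root_.fderiv ℝ (fun z => f t z - f s z) =ᶠ[𝓝 y]
        fun z => _root_.fderiv ℝ (f t) z - _root_.fderiv ℝ (f s) z :=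
      mem_of_superset (h.op.mem_nhds hy) fun z hz => fderiv_fun_sub
        ((sm_slice h.op h.sm ht hz).differentiableAt (by simp))
        ((sm_slice h.op h.sm hs hz).differentiableAt (by simp))
    rw [← norm_iteratedFDeriv_fderiv, (e.iteratedFDeriv ℝ j).eq_of_nhds]
    exact ih (f := fun t => _root_.fderiv ℝ (f t)) h.fderiv fun u hu =>
      norm_iteratedFDeriv_fderiv.trans_le (hC u hu)

end tfam

/-- bounded intervals, points and initial times along a filter -/
structure Dat (l : Filter ι) (I : ι → Set ℝ) (V : ι → Set E) (x : ι → E) (s : ι → ℝ) : Prop where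
  oc : ∀ᶠ n in l, (I n).OrdConnected
  mem : ∀ᶠ n in l, x n ∈ V n
  ini : ∀ᶠ n in l, s n ∈ I n
  len : ∃ T, ∀ᶠ n in l, ∀ t ∈ I n, |t - s n| ≤ T

variable {I : ι → Set ℝ} {V : ι → Set E} {x : ι → E} {s : ι → ℝ}

theorem Dat.bj_sub (d : Dat l I V x s) {f f' : ι → ℝ → E → F}
    (h : ∀ᶠ n in l, TF (I n) (V n) (f n) (f' n))
    (h1 : BJ (tf l fun n => interior (I n)) (fun p => x p.1) k fun p => f' p.1 p.2) {j : ℕ}
    (hj : j ≤ k) : ∃ C, 0 ≤ C ∧ ∀ᶠ n in l, ∀ t ∈ I n, ∀ t' ∈ I n,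
      ‖iteratedFDeriv ℝ j (fun z => f n t z - f n t' z) (x n)‖ ≤ C * |t - t'| := by
  obtain ⟨C, C0, hC⟩ := (h1.bd j hj).nonneg
  refine ⟨C, C0, ?_⟩
  filter_upwards [h, ev_tf.1 hC, d.oc, d.mem] with n a b c e t ht t' ht'
  exact TF.iter_le c ht' ht e j a b

/-- integration in time -/
theorem Dat.bj (d : Dat l I V x s) {f f' : ι → ℝ → E → F}
    (h : ∀ᶠ n in l, TF (I n) (V n) (f n) (f' n)) (h0 : BJ l x k fun n => f n (s n))
    (h1 : BJ (tf l fun n => interior (I n)) (fun p => x p.1) k fun p => f' p.1 p.2) :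
    BJ (tf l I) (fun p => x p.1) k fun p => f p.1 p.2 := by
  have h2 : BJ (tf l I) (fun p => x p.1) k fun p z => f p.1 p.2 z - f p.1 (s p.1) z := by
    refine ⟨ev_tf.2 ?_, fun j hj => ?_⟩
    · filter_upwards [h, d.mem, d.ini] with n a b c t ht
      exact (sm_slice a.op a.sm ht b).sub (sm_slice a.op a.sm c b)
    · obtain ⟨C, C0, hC⟩ := d.bj_sub h h1 hj
      obtain ⟨T, hT⟩ := d.len
      refine ⟨C * T, ev_tf.2 ?_⟩
      filter_upwards [hC, hT, d.ini] with n a b c t ht
      exact (a t ht _ c).trans (mul_le_mul_of_nonneg_left (b t ht) C0)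
  exact (h2.add (h0.comp_tendsto tendsto_tf)).congr
    (.of_forall fun p => .of_forall fun z => (sub_add_cancel _ _).symm)

/-! ### static bounds -/

variable [FiniteDimensional ℝ E] {G : ι → E → Bil E}

/-- metrics near the points -/
def Mt (l : Filter ι) (x : ι → E) (G : ι → E → Bil E) : Prop :=
  ∀ᶠ n in l, ∃ V, IsMetricOn (G n) V ∧ x n ∈ V

theorem Mt.ev (h : Mt l x G) {P : ι → E → Prop}
    (H : ∀ n V y, IsMetricOn (G n) V → y ∈ V → P n y) : ∀ᶠ n in l, ∀ᶠ y in 𝓝 (x n), P n y :=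
  h.mono fun n ⟨V, a, b⟩ => mem_of_superset (a.isOpen.mem_nhds b) fun y hy => H n V y a hy

theorem Mt.at (h : Mt l x G) {P : ι → Prop}
    (H : ∀ n V, IsMetricOn (G n) V → x n ∈ V → P n) : ∀ᶠ n in l, P n :=
  h.mono fun n ⟨V, a, b⟩ => H n V a b

theorem bj_inv (hG : BJ l x k G) (p : UPos l fun n => G n (x n)) :
    BJ l x k fun n y => (G n y).inverse := by
  obtain ⟨J⟩ : Nonempty ((E →L[ℝ] ℝ) ≃L[ℝ] E) :=
    ⟨.ofFinrankEq (by
      rw [← LinearMap.toContinuousLinearMap.finrank_eq]; exact Subspace.dual_finrank_eq)⟩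
  obtain ⟨c, c0, hc⟩ := p
  have hI := ((BJ.cst (J : (E →L[ℝ] ℝ) →L[ℝ] E)).clm_comp hG).inverse
    (hc.mono fun n hn => (unit_of_pos J c0 hn).1) ⟨_, hc.mono fun n hn => (unit_of_pos J c0 hn).2⟩
  exact (hI.clm_comp (BJ.cst (J : (E →L[ℝ] ℝ) →L[ℝ] E))).congr (.of_forall fun n => .of_forall
    fun y => ContinuousLinearMap.inverse_eq_ringInverse J.symm (G n y))

theorem Mt.lower (h : Mt l x G) (hi : BJ l x k fun n y => (G n y).inverse) {a : ι → E → E}
    (ha : ∀ z, BJ l x k fun n y => G n y (a n y) z) : BJ l x k a :=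
  (hi.clm_apply (bj_of_apply ha)).congr (h.ev fun _ _ _ m hy =>
    ((m.isInvertible hy).inverse_apply_eq.2 rfl).symm)

theorem bj_app2 {A : ι → E → E →L[ℝ] E →L[ℝ] F} (h : BJ l x k A) (a b : E) :
    BJ l x k fun n y => A n y a b := (h.clm_apply (.cst a)).clm_apply (.cst b)

theorem bj_app3 {A : ι → E → E →L[ℝ] E →L[ℝ] E →L[ℝ] F} (h : BJ l x k A) (a b c : E) :
    BJ l x k fun n y => A n y a b c := (bj_app2 h a b).clm_apply (.cst c)

theorem Mt.chris (h : Mt l x G) (p : UPos l fun n => G n (x n)) (hG : BJ l x (k + 1) G) :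
    BJ l x k fun n => chrisB (G n) := by
  refine bj_of_apply fun a => bj_of_apply fun b =>
    h.lower (bj_inv (hG.mono k.le_succ) p) fun c => ?_
  have d := bj_app3 hG.fderiv
  refine ((((d a b c).add (d b a c)).sub (d c a b)).mul (.cst 2⁻¹)).congr
    (h.ev fun _ _ _ m hy => ?_)
  beta_reduce
  rw [chrisB_apply, m.chris_spec hy]; ring

theorem Mt.of_chris (h : Mt l x G) (hG : BJ l x k G) (hc : BJ l x k fun n => chrisB (G n)) :
    BJ l x (k + 1) G := by
  refine (hG.mono k.zero_le).succ (bj_of_apply fun a => bj_of_apply fun b => bj_of_apply fun c => ?_)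
  refine (((hG.clm_apply (bj_app2 hc a b)).clm_apply (.cst c)).add
    ((hG.clm_apply (.cst b)).clm_apply (bj_app2 hc a c))).congr (h.ev fun _ _ _ m hy => ?_)
  simp only [chrisB_apply, m.chris_compat hy]

theorem Mt.curv (h : Mt l x G) (p : UPos l fun n => G n (x n)) (hG : BJ l x (k + 2) G) :
    BJ l x k fun n => curvB (G n) := by
  have h1 := h.chris p hG
  have h0 := h1.mono k.le_succ
  refine bj_of_apply fun a => bj_of_apply fun b => bj_of_apply fun c => ?_
  have d := bj_app3 h1.fderiv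
  have q := fun a b => (h0.clm_apply (.cst a)).clm_apply (bj_app2 h0 b c)
  refine ((((d a b c).sub (d b a c)).add (q a b)).sub (q b a)).congr (h.ev fun _ _ _ m hy => ?_)
  exact (curvB_apply m hy a b c).trans (m.curv_eq hy a b c)

theorem bj_ric (h : BJ l x k fun n => curvB (G n)) : BJ l x k fun n => ricG (G n) :=
  bj_of_apply fun v => bj_of_apply fun w => (BJ.sum Finset.univ fun i _ =>
    (bj_app3 h (Module.finBasis ℝ E i) v w).clm
      ((Module.finBasis ℝ E).coord i).toContinuousLinearMap).congr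
    (.of_forall fun n => .of_forall fun y => ricG_eq (G n) y v w)

/-- a slot filled with a vector field -/
theorem Mt.slot (h : Mt l x G) {j : ℕ} (hT : ∀ v, BJ l x k fun n y => rmG (G n) j (y, v))
    {a : ι → E → E} (ha : BJ l x k a) (v : Fin (j + 4) → E) (c : Fin (j + 4)) :
    BJ l x k fun n y => rmG (G n) j (y, update v c (a n y)) := by
  let b := Module.finBasis ℝ E
  refine (BJ.sum Finset.univ fun i _ => (ha.clm (b.coord i).toContinuousLinearMap).mul
    (hT (update v c (b i)))).congr (h.ev fun n _ y m hy => ?_)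
  have := ((tn_rmG m j).lin y hy v c).mk'_apply
  beta_reduce
  conv_lhs => rw [← b.sum_repr (a n y), ← this, map_sum]
  exact Finset.sum_congr rfl fun i _ => map_smul _ _ _

theorem Mt.rm_succ (h : Mt l x G) {j : ℕ} (hc : BJ l x k fun n => chrisB (G n))
    (h0 : ∀ v, BJ l x k fun n y => rmG (G n) j (y, v))
    (h1 : ∀ v, BJ l x k fun n y => rmG (G n) (j + 1) (y, v)) (v : Fin (j + 4) → E) :
    BJ l x (k + 1) fun n y => rmG (G n) j (y, v) := by
  refine ((h0 v).mono k.zero_le).succ (bj_of_apply fun u => ?_)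
  refine ((h1 (Fin.cons u v)).add (BJ.sum Finset.univ fun c _ =>
    h.slot h0 (bj_app2 hc u (v c)) v c)).congr (h.ev fun n _ y m hy => ?_)
  have := (tn_rmG m j).nab_eq hy (G n) (Fin.cons u v)
  simp only [Fin.tail_cons, Fin.cons_zero, Fin.cons_succ] at this
  simp only [chrisB_apply]
  exact (eq_sub_iff_add_eq.1 this).symm

theorem Mt.rm (h : Mt l x G) (p : UPos l fun n => G n (x n)) (j : ℕ) : ∀ {k : ℕ},
    BJ l x (k + j + 2) G → ∀ v, BJ l x k fun n y => rmG (G n) j (y, v) := by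
  induction j with
  | zero =>
    intro k hG v
    exact (((hG.mono (by omega)).clm_apply (bj_app3 (h.curv p hG) (v 0) (v 1) (v 2))).clm_apply
      (.cst (v 3))).congr (h.ev fun _ _ _ m hy => rmG_zero m hy v)
  | succ j ih =>
    intro k hG v
    have h1 := ih (k := k + 1) (hG.mono (by omega))
    exact (((h1 (Fin.tail v)).fderiv.clm_apply (.cst (v 0))).sub (BJ.sum Finset.univ fun c _ =>
      h.slot (fun v => (h1 v).mono k.le_succ) (bj_app2 (h.chris p (hG.mono (by omega))) (v 0)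
        (v c.succ)) (Fin.tail v) c)).congr (h.ev fun n _ y m hy => by
          simp only [chrisB_apply]; exact (tn_rmG m j).nab_eq hy (G n) v)

end Vale.Agent.P216J
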